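import Vale.Agent.Lib.P033.Core

/-! # P033: no multiplier is -1 modulo `4 p^(2a)` -/

namespace Vale.Agent.P033

open Finset

/-- the sign of a residue modulo 2 -/
def sgn (x : ZMod 2) : ℤ := if x = 0 then 1 else -1

theorem sgn_add : ∀ x y : ZMod 2, sgn (x + y) = sgn x * sgn y := by decide

theorem sgn_sq : ∀ x : ZMod 2, sgn x * sgn x = 1 := by decide

theorem sgn_zero : sgn 0 = 1 := by decide

theorem Perf.twist {q : ℕ} [NeZero q] (τ : ZMod q →+* ZMod 2) {f : ZMod q → ℤ} {N : ℤ}
    (hf : Perf f N) : Perf (fun j => sgn (τ j) * f j) N := by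
  intro k
  have h1 : ∀ j, sgn (τ j) * f j * (sgn (τ (j + k)) * f (j + k)) =
      sgn (τ k) * (f j * f (j + k)) := by
    intro j
    rw [map_add, sgn_add]
    linear_combination (sgn (τ k) * f j * f (j + k)) * sgn_sq (τ j)
  simp_rw [h1]
  rw [← Finset.mul_sum, hf k]
  split_ifs with h
  · rw [h, map_zero, sgn_zero, one_mul]
  · rw [mul_zero]

theorem push_total {n r : ℕ} [NeZero n] [NeZero r] (π : ZMod n →+* ZMod r) (f : ZMod n → ℤ) :
    ∑ i, push π f i = ∑ j, f j := by
  unfold push
  rw [Finset.sum_comm]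
  refine Finset.sum_congr rfl fun j _ => ?_
  simp

theorem push_mul {n r : ℕ} [NeZero n] [NeZero r] (π : ZMod n →+* ZMod r) (f : ZMod n → ℤ)
    (s : (ZMod n)ˣ) (hs : ∀ j, f (s * j) = f j) (i : ZMod r) :
    push π f (π s * i) = push π f i := by
  unfold push
  rw [← Equiv.sum_comp (Units.mulLeft s)]
  refine Finset.sum_congr rfl fun j _ => ?_
  have h1 : (π (s : ZMod n) * π j = π s * i) ↔ π j = i := by
    constructor
    · intro h
      exact (s.isUnit.map π).mul_left_cancel h
    · intro h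
      rw [h]
  simp only [Units.mulLeft_apply, map_mul, h1, hs]

theorem fiber_card {n r : ℕ} [NeZero n] [NeZero r] (π : ZMod n →+* ZMod r) (i : ZMod r) :
    r * (univ.filter fun j => π j = i).card = n := by
  have hsurj : Function.Surjective π := ZMod.ringHom_surjective π
  have h1 : ∀ i', (univ.filter fun j => π j = i').card = (univ.filter fun j => π j = i).card := by
    intro i'
    obtain ⟨d, hd⟩ := hsurj (i - i')
    apply Finset.card_bij (fun j _ => j + d)
    · intro j hj
      simp only [mem_filter, mem_univ, true_and] at hj ⊢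
      rw [map_add, hj, hd]
      ring
    · intro a _ b _ h
      exact add_right_cancel h
    · intro b hb
      simp only [mem_filter, mem_univ, true_and] at hb
      refine ⟨b - d, ?_, by ring⟩
      simp only [mem_filter, mem_univ, true_and]
      rw [map_sub, hb, hd]
      ring
  have h2 := Finset.card_eq_sum_card_fiberwise (f := π) (s := univ) (t := univ)
    (fun x _ => Finset.mem_coe.2 (mem_univ _))
  rw [Finset.sum_congr rfl (fun i' _ => h1 i')] at h2
  simp only [Finset.card_univ, ZMod.card, Finset.sum_const, smul_eq_mul] at h2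
  exact h2.symm

theorem push_odd {n r : ℕ} [NeZero n] [NeZero r] (π : ZMod n →+* ZMod r) (f : ZMod n → ℤ)
    (hf : ∀ j, f j = 1 ∨ f j = -1) (m : ℕ) (hm : Odd m) (hn : r * m = n) (i : ZMod r) :
    push π f i % 2 = 1 := by
  have h1 : (univ.filter fun j => π j = i).card = m := by
    have := fiber_card π i
    exact Nat.eq_of_mul_eq_mul_left (Nat.pos_of_ne_zero (NeZero.ne r)) (this.trans hn.symm)
  have h2 : push π f i = ∑ j ∈ univ.filter fun j => π j = i, f j := by
    unfold push
    rw [Finset.sum_filter]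
  rw [h2]
  have h3 : ∀ S : Finset (ZMod n), (∑ j ∈ S, f j) % 2 = (S.card : ℤ) % 2 := by
    intro S
    induction S using Finset.induction_on with
    | empty => simp
    | insert a S ha ih =>
      rw [Finset.sum_insert ha, Finset.card_insert_of_notMem ha]
      push_cast
      rcases hf a with h | h <;> rw [h] <;> omega
  rw [h3, h1]
  obtain ⟨k, hk⟩ := hm
  omega

theorem coprime_iff {p a : ℕ} (hp : p.Prime) (ha : 0 < a) (k : ℕ) :
    k.Coprime (4 * p ^ (2 * a)) ↔ ¬ 2 ∣ k ∧ ¬ p ∣ k := by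
  rw [Nat.coprime_mul_iff_right, Nat.coprime_pow_right_iff (by omega),
    show (4 : ℕ) = 2 ^ 2 by norm_num, Nat.coprime_pow_right_iff (by omega),
    Nat.coprime_comm, Nat.Prime.coprime_iff_not_dvd Nat.prime_two, Nat.coprime_comm (n := k),
    Nat.Prime.coprime_iff_not_dvd hp]

theorem isUnit_iff {p a : ℕ} (hp : p.Prime) (ha : 0 < a) (τ : ZMod (4 * p ^ (2 * a)) →+* ZMod 2)
    (ρ : ZMod (4 * p ^ (2 * a)) →+* ZMod p) (i : ZMod (4 * p ^ (2 * a))) :
    IsUnit i ↔ τ i ≠ 0 ∧ ρ i ≠ 0 := by
  have hpos : 0 < p := hp.pos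
  have : NeZero (4 * p ^ (2 * a)) := ⟨by positivity⟩
  have h1 : ((i.val : ℕ) : ZMod (4 * p ^ (2 * a))) = i := ZMod.natCast_zmod_val i
  generalize i.val = k at h1
  subst h1
  rw [map_natCast, map_natCast, ZMod.isUnit_iff_coprime, Ne, Ne, ZMod.natCast_eq_zero_iff,
    ZMod.natCast_eq_zero_iff, coprime_iff hp ha]

theorem unit_sum {q : ℕ} [NeZero q] (f : ZMod q → ℤ) (hf : ∀ s i : ZMod q, IsUnit s →
    f (s * i) = f i) : ∑ i ∈ univ.filter (fun i => IsUnit i), f i = q.totient * f 1 := by
  classical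
  have h1 : ∀ i ∈ univ.filter (fun i : ZMod q => IsUnit i), f i = f 1 := by
    intro i hi
    have := hf i 1 (Finset.mem_filter.1 hi).2
    rwa [mul_one] at this
  rw [Finset.sum_congr rfl h1, Finset.sum_const, nsmul_eq_mul]
  congr 2
  have h2 : univ.filter (fun i : ZMod q => IsUnit i) = univ.image (Units.val : (ZMod q)ˣ → _) := by
    ext x
    simp only [mem_filter, mem_univ, true_and, mem_image]
    exact Iff.rfl
  rw [h2, Finset.card_image_of_injective _ Units.val_injective, Finset.card_univ,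
    ZMod.card_units_eq_totient]

theorem caseOne {u p a v n : ℕ} [NeZero n] (hp : p.Prime) (hp2 : p ≠ 2) (ha : 0 < a)
    (hu : u = p ^ a * v) (hv : ¬ p ∣ v) (huo : Odd u) (hn : n = 4 * u ^ 2)
    (h : ZMod n → ℤ) (hpm : ∀ j, h j = 1 ∨ h j = -1) (hperf : Perf h (4 * (u : ℤ) ^ 2))
    (π : ZMod n →+* ZMod (4 * p ^ (2 * a))) (hsym : ∀ i, push π h (-i) = push π h i) :
    False := by
  have hpos : 0 < p := hp.pos
  have hp3 : 2 < p := lt_of_le_of_ne hp.two_le (Ne.symm hp2)
  have hNZ : NeZero (4 * p ^ (2 * a)) := ⟨by positivity⟩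
  have hNp : NeZero p := ⟨hpos.ne'⟩
  have hFp : Fact p.Prime := ⟨hp⟩
  have hupos : 0 < u := huo.pos
  have hvo : Odd v := by
    rw [hu] at huo
    exact (Nat.odd_mul.1 huo).2
  set f := push π h with hf
  have hfperf : Perf f (4 * (u : ℤ) ^ 2) := hperf.push π
  have hinv : ∀ s i, IsUnit s → f (s * i) = f i := fun s i hs' =>
    unit_inv f u hupos hsym hfperf s hs' i
  have hodd : ∀ i, f i % 2 = 1 := by
    intro i
    refine push_odd π h hpm (v ^ 2) hvo.pow ?_ i
    rw [hn, hu]
    ring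
  have hd2 : 2 ∣ 4 * p ^ (2 * a) := ⟨2 * p ^ (2 * a), by ring⟩
  have hdp : p ∣ 4 * p ^ (2 * a) := Dvd.dvd.mul_left (dvd_pow_self p (by omega)) 4
  set τ : ZMod (4 * p ^ (2 * a)) →+* ZMod 2 := ZMod.castHom hd2 (ZMod 2) with hτ
  set ρ : ZMod (4 * p ^ (2 * a)) →+* ZMod p := ZMod.castHom hdp (ZMod p) with hρ
  set g : ZMod (4 * p ^ (2 * a)) → ℤ := fun j => sgn (τ j) * f j with hg
  have hgperf : Perf g (4 * (u : ℤ) ^ 2) := hfperf.twist τ
  have hEperf : Perf (push ρ f) (4 * (u : ℤ) ^ 2) := hfperf.push ρ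
  have hDperf : Perf (push ρ g) (4 * (u : ℤ) ^ 2) := hgperf.push ρ
  have hlift : ∀ y : ZMod p, y ≠ 0 → ∃ s' : (ZMod (4 * p ^ (2 * a)))ˣ, ρ s' = y := by
    intro y hy
    obtain ⟨s', hs'⟩ := ZMod.unitsMap_surjective hdp (Units.mk0 y hy)
    refine ⟨s', ?_⟩
    have := congrArg Units.val hs'
    rw [hρ]
    simpa [ZMod.unitsMap_def] using this
  have hE : ∀ y, y ≠ 0 → push ρ f y = push ρ f 1 := by
    intro y hy
    obtain ⟨s', hs'⟩ := hlift y hy
    have := push_mul ρ f s' (fun j => hinv s' j s'.isUnit) 1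
    rwa [mul_one, hs'] at this
  have hD : ∀ y, y ≠ 0 → push ρ g y = push ρ g 1 := by
    intro y hy
    obtain ⟨s', hs'⟩ := hlift y hy
    have hτ1 : τ s' = 1 := by
      have h0 := ((isUnit_iff hp ha τ ρ s').1 s'.isUnit).1
      revert h0
      generalize τ s' = z
      revert z
      decide
    have := push_mul ρ g s' (fun j => by
      simp only [hg, map_mul, hτ1, one_mul, hinv s' j s'.isUnit]) 1
    rwa [mul_one, hs'] at this
  have key : ((p : ℤ) - 1) * (push ρ f 1 - push ρ g 1) =
      2 * ((4 * p ^ (2 * a)).totient * f 1) := by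
    have h1 : ∑ y ∈ univ.erase (0 : ZMod p), (push ρ f y - push ρ g y) =
        ((p : ℤ) - 1) * (push ρ f 1 - push ρ g 1) := by
      rw [Finset.sum_congr rfl (fun y hy => by
        rw [hE y (Finset.ne_of_mem_erase hy), hD y (Finset.ne_of_mem_erase hy)])]
      rw [Finset.sum_const, Finset.card_erase_of_mem (Finset.mem_univ _), Finset.card_univ,
        ZMod.card, nsmul_eq_mul, Nat.cast_sub (by omega)]
      simp
    rw [← h1, ← unit_sum f hinv, Finset.mul_sum, Finset.sum_filter]
    unfold push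
    simp_rw [← Finset.sum_sub_distrib]
    rw [Finset.sum_comm]
    refine Finset.sum_congr rfl fun i _ => ?_
    have h2 : ∀ y : ZMod p, ((if ρ i = y then f i else 0) - if ρ i = y then g i else 0) =
        if ρ i = y then f i - g i else 0 := by
      intro y
      split_ifs <;> simp
    simp_rw [h2]
    rw [Finset.sum_ite_eq]
    simp only [Finset.mem_erase, Finset.mem_univ, and_true]
    have h3 := isUnit_iff hp ha τ ρ i
    by_cases hr : ρ i = 0
    · rw [if_neg (by simpa using hr), if_neg (fun h => (h3.1 h).2 hr)]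
    · by_cases ht : τ i = 0
      · rw [if_pos hr, if_neg (fun h => (h3.1 h).1 ht)]
        simp only [hg, ht, sgn_zero, one_mul, sub_self]
      · rw [if_pos hr, if_pos (h3.2 ⟨ht, hr⟩)]
        have : sgn (τ i) = -1 := by
          unfold sgn
          rw [if_neg ht]
        simp only [hg, this]
        ring
  have htot : (4 * p ^ (2 * a)).totient = 2 * (p ^ (2 * a - 1) * (p - 1)) := by
    rw [Nat.totient_mul, Nat.totient_prime_pow hp (by omega)]
    · rfl
    · exact Nat.Coprime.pow_right _ ((Nat.Coprime.pow_left 2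
        ((Nat.coprime_primes Nat.prime_two hp).2 (Ne.symm hp2))))
  have hpp : (p : ℤ) ^ (2 * a) = p * p ^ (2 * a - 1) := by
    rw [← pow_succ']
    congr 1
    omega
  have key2 : (p : ℤ) * push ρ f 1 - p * push ρ g 1 = 4 * (p ^ (2 * a) * f 1) := by
    rw [htot] at key
    push_cast [Nat.cast_sub (show 1 ≤ p by omega)] at key
    have h4 : ((p : ℤ) - 1) * (push ρ f 1 - push ρ g 1 - 4 * (p ^ (2 * a - 1) * f 1)) = 0 := by
      linear_combination key
    have h5 : ((p : ℤ) - 1) ≠ 0 := by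
      have : (2 : ℤ) < p := by exact_mod_cast hp3
      omega
    have h6 := (mul_eq_zero.1 h4).resolve_left h5
    rw [hpp]
    linear_combination (p : ℤ) * h6
  have hf1 := hodd 1
  have hdvd : ∀ c : ℤ, (p : ℤ) ^ (2 * a) * f 1 = u * c → (c = 0 ∨ c ∣ 2) → False := by
    intro c hc hc2
    rcases hc2 with h0 | h0
    · rw [h0, mul_zero] at hc
      rcases mul_eq_zero.1 hc with h7 | h7
      · have : (p : ℤ) ≠ 0 := by exact_mod_cast hpos.ne'
        exact pow_ne_zero _ this h7
      · rw [h7] at hf1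
        simp at hf1
    · have h8 : (p : ℤ) ^ (2 * a) ∣ u * 2 := (Dvd.intro _ hc).trans (mul_dvd_mul_left _ h0)
      have h9 : p ^ (2 * a) ∣ u * 2 := by exact_mod_cast h8
      have h10 : p ^ (2 * a) ∣ u := Nat.Coprime.dvd_of_dvd_mul_right
        (Nat.Coprime.pow_left _ ((Nat.coprime_primes hp Nat.prime_two).2 hp2)) h9
      rw [hu, two_mul, pow_add] at h10
      have h11 := Nat.dvd_of_mul_dvd_mul_left (pow_pos hpos a) h10
      exact hv ((dvd_pow_self p (by omega)).trans h11)
  rcases prime_level hp3 _ u hEperf hE with h1 | h1 | h1 <;>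
  rcases prime_level hp3 _ u hDperf hD with h2 | h2 | h2 <;>
  rw [h1, h2] at key2
  · exact hdvd 0 (by linarith) (Or.inl rfl)
  · exact hdvd (-1) (by linarith) (Or.inr (by norm_num))
  · exact hdvd 1 (by linarith) (Or.inr (by norm_num))
  · exact hdvd 1 (by linarith) (Or.inr (by norm_num))
  · exact hdvd 0 (by linarith) (Or.inl rfl)
  · exact hdvd 2 (by linarith) (Or.inr (by norm_num))
  · exact hdvd (-1) (by linarith) (Or.inr (by norm_num))
  · exact hdvd (-2) (by linarith) (Or.inr (by norm_num))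
  · exact hdvd 0 (by linarith) (Or.inl rfl)

end Vale.Agent.P033
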