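import Vale.Agent.Lib.P033.CaseOne

/-! # P033: shifts, periods and the case `s = 1 + n/2` -/

namespace Vale.Agent.P033

open Finset

variable {n : ℕ} [NeZero n]

theorem Perf.shift {f : ZMod n → ℤ} {N : ℤ} (hf : Perf f N) (d : ZMod n) :
    Perf (fun j => f (j + d)) N := by
  intro k
  rw [← hf k, ← Equiv.sum_comp (Equiv.addRight d) (fun j => f j * f (j + k))]
  refine Finset.sum_congr rfl fun j _ => ?_
  simp only [Equiv.coe_addRight]
  congr 2
  ring

theorem push_shift {r : ℕ} [NeZero r] (π : ZMod n →+* ZMod r) (f : ZMod n → ℤ) (d : ZMod n)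
    (i : ZMod r) : push π (fun j => f (j + d)) i = push π f (i + π d) := by
  unfold push
  rw [← Equiv.sum_comp (Equiv.addRight d) (fun j => if π j = i + π d then f j else 0)]
  refine Finset.sum_congr rfl fun j _ => ?_
  simp [map_add]

/-- the multiplier relation pushed forward -/
theorem push_mult {r : ℕ} [NeZero r] (π : ZMod n →+* ZMod r) (f : ZMod n → ℤ) (s : (ZMod n)ˣ)
    (c : ZMod n) (hs : ∀ j, f (s * j) = f (j + c)) (i : ZMod r) :
    push π f (π s * i) = push π f (i + π c) := by
  rw [← push_shift]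
  unfold push
  rw [← Equiv.sum_comp (Units.mulLeft s)]
  refine Finset.sum_congr rfl fun j _ => ?_
  have h1 : (π (s : ZMod n) * π j = π s * i) ↔ π j = i := by
    constructor
    · intro h
      exact (s.isUnit.map π).mul_left_cancel h
    · intro h
      rw [h]
  simp only [Units.mulLeft_apply, map_mul, h1, hs]

theorem no_period {f : ZMod n → ℤ} {N : ℤ} (hf : Perf f N) (hN : N ≠ 0) (k : ZMod n)
    (hk : ∀ j, f (j + k) = f j) : k = 0 := by
  by_contra h
  have h1 := hf k
  rw [if_neg h] at h1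
  have h0 := hf 0
  rw [if_pos rfl] at h0
  apply hN
  rw [← h0, ← h1]
  refine Finset.sum_congr rfl fun j _ => ?_
  rw [hk, add_zero]

theorem add_mul_zero {f : ZMod n → ℤ} {N : ℤ} (hf : Perf f N) (hN : N ≠ 0) (s c : ZMod n)
    (hs : s * s = 1) (h : ∀ j, f (s * j) = f (j + c)) : (s + 1) * c = 0 := by
  apply no_period hf hN
  intro j
  have h1 : f (s * (s * j)) = f (s * j + c) := h (s * j)
  have h2 : s * j + c = s * (j + s * c) := by
    have : s * (s * c) = c := by rw [← mul_assoc, hs, one_mul]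
    rw [mul_add, this]
  have h3 : s * (s * j) = j := by rw [← mul_assoc, hs, one_mul]
  rw [h3, h2, h] at h1
  rw [h1]
  congr 1
  ring

theorem perf_total {f : ZMod n → ℤ} {N : ℤ} (hf : Perf f N) : (∑ j, f j) ^ 2 = N := by
  have h1 : ∑ k, ∑ j, f j * f (j + k) = N := by
    rw [Finset.sum_congr rfl (fun k _ => hf k)]
    simp
  rw [Finset.sum_comm] at h1
  rw [← h1, sq, Finset.sum_mul_sum]
  refine Finset.sum_congr rfl fun j _ => ?_
  rw [← Equiv.sum_comp (Equiv.addLeft j)]
  rfl

/-- the shift of a multiplier is even -/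
theorem shift_even {f : ZMod n → ℤ} {N : ℤ} (hf : Perf f N) (hN : N ≠ 0)
    (τ : ZMod n →+* ZMod 2) (s : (ZMod n)ˣ) (c : ZMod n)
    (h : ∀ j, f (s * j) = f (j + c)) : τ c = 0 := by
  have hτs : τ s = 1 := by
    have h0 : IsUnit (τ s) := s.isUnit.map τ
    revert h0
    generalize τ s = z
    revert z
    decide
  by_contra hc
  have hc1 : τ c = 1 := by
    revert hc
    generalize τ c = z
    revert z
    decide
  have h1 : ∑ j, sgn (τ j) * f j = -∑ j, sgn (τ j) * f j := by
    conv_lhs => rw [← Equiv.sum_comp (Units.mulLeft s)]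
    rw [← Equiv.sum_comp (Equiv.addRight c) (fun j => sgn (τ j) * f j), ← Finset.sum_neg_distrib]
    refine Finset.sum_congr rfl fun j _ => ?_
    simp only [Units.mulLeft_apply, map_mul, hτs, one_mul, Equiv.coe_addRight, map_add, hc1, h]
    have : sgn (τ j + 1) = - sgn (τ j) := by
      generalize τ j = z
      revert z
      decide
    rw [this]
    ring
  have h2 : ∑ j, sgn (τ j) * f j = 0 := by linarith
  have h3 := perf_total (hf.twist τ)
  rw [h2] at h3
  apply hN
  rw [← h3]
  norm_num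

theorem sum_mod_four {ι : Type*} [DecidableEq ι] (S : Finset ι) (g : ι → ℤ)
    (hg : ∀ i, g i = 1 ∨ g i = -1) :
    (∏ i ∈ S, g i = 1 ∨ ∏ i ∈ S, g i = -1) ∧
      (4 : ℤ) ∣ (∑ i ∈ S, g i) - (S.card - 1 + ∏ i ∈ S, g i) := by
  induction S using Finset.induction_on with
  | empty => simp
  | insert a S ha ih =>
    rw [Finset.sum_insert ha, Finset.card_insert_of_notMem ha, Finset.prod_insert ha]
    push_cast
    obtain ⟨h1, h2⟩ := ih
    rcases hg a with h | h <;> rw [h] <;> rcases h1 with h1 | h1 <;> rw [h1] at h2 ⊢ <;>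
      refine ⟨by norm_num, by omega⟩

/-- `h (j + n/2) = h j` on a parity class is impossible -/
theorem caseTwo {u : ℕ} (huo : Odd u) (hu1 : 1 < u) (hn : n = 4 * u ^ 2)
    (h : ZMod n → ℤ) (hpm : ∀ j, h j = 1 ∨ h j = -1) (hperf : Perf h (4 * (u : ℤ) ^ 2))
    (τ : ZMod n →+* ZMod 2) (e : ZMod 2)
    (hper : ∀ j, τ j = e → h (j + ((2 * u ^ 2 : ℕ) : ZMod n)) = h j) : False := by
  have hupos : 0 < u := huo.pos
  set w : ZMod n := ((2 * u ^ 2 : ℕ) : ZMod n) with hw
  have hww : w + w = 0 := by
    rw [hw, ← Nat.cast_add, ZMod.natCast_eq_zero_iff, hn]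
    exact ⟨1, by ring⟩
  have hw0 : w ≠ 0 := by
    rw [hw, Ne, ZMod.natCast_eq_zero_iff, hn]
    intro hd
    have := Nat.le_of_dvd (by positivity) hd
    have : 0 < u ^ 2 := by positivity
    omega
  have hτw : τ w = 0 := by
    rw [hw, map_natCast, ZMod.natCast_eq_zero_iff]
    exact ⟨u ^ 2, by ring⟩
  have hcard : ∀ e' : ZMod 2, (univ.filter fun j => τ j = e').card = 2 * u ^ 2 := by
    intro e'
    have := fiber_card τ e'
    omega
  have hne : ∀ z : ZMod 2, z ≠ e ↔ z = e + 1 := by
    intro z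
    clear hper hcard
    revert z e
    decide
  have hpp : ∀ j, h j * h j = 1 := by
    intro j
    rcases hpm j with h' | h' <;> rw [h'] <;> norm_num
  have hpm2 : ∀ j k, h j * h k = 1 ∨ h j * h k = -1 := by
    intro j k
    rcases hpm j with h' | h' <;> rcases hpm k with h'' | h'' <;> rw [h', h''] <;> norm_num
  have split : ∀ g : ZMod n → ℤ, ∑ j, g j =
      ∑ j ∈ univ.filter (fun j => τ j = e), g j +
      ∑ j ∈ univ.filter (fun j => τ j = e + 1), g j := by
    intro g
    rw [← Finset.sum_filter_add_sum_filter_not univ (fun j => τ j = e)]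
    congr 1
    refine Finset.sum_congr ?_ fun _ _ => rfl
    ext j
    simp only [mem_filter, mem_univ, true_and]
    exact hne (τ j)
  have hneg : ∀ j, τ j = e + 1 → h (j + w) = - h j := by
    have h0 := hperf w
    rw [if_neg hw0, split] at h0
    have h1 : ∑ j ∈ univ.filter (fun j => τ j = e), h j * h (j + w) = 2 * u ^ 2 := by
      rw [Finset.sum_congr rfl (g := fun _ => (1 : ℤ))]
      · rw [Finset.sum_const, hcard]
        simp
      · intro j hj
        rw [hper j (Finset.mem_filter.1 hj).2, hpp]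
    have h2 : ∑ j ∈ univ.filter (fun j => τ j = e + 1), (h j * h (j + w) + 1) = 0 := by
      rw [Finset.sum_add_distrib, Finset.sum_const, hcard]
      simp only [smul_eq_mul, nsmul_eq_mul]
      push_cast
      linarith
    rw [Finset.sum_eq_zero_iff_of_nonneg] at h2
    · intro j hj
      have := h2 j (Finset.mem_filter.2 ⟨Finset.mem_univ _, hj⟩)
      have h3 : h j * h (j + w) = -1 := by linarith
      rcases hpm j with h' | h' <;> rw [h'] at h3 ⊢ <;> linarith
    · intro j _
      rcases hpm2 j (j + w) with h' | h' <;> rw [h'] <;> norm_num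
  have h2ne : (2 : ZMod n) ≠ 0 := by
    have : ((2 : ℕ) : ZMod n) ≠ 0 := by
      rw [Ne, ZMod.natCast_eq_zero_iff, hn]
      intro hd
      have := Nat.le_of_dvd (by norm_num) hd
      nlinarith
    simpa using this
  have h2wne : (2 : ZMod n) + w ≠ 0 := by
    have : ((2 + 2 * u ^ 2 : ℕ) : ZMod n) ≠ 0 := by
      rw [Ne, ZMod.natCast_eq_zero_iff, hn]
      intro hd
      have := Nat.le_of_dvd (by positivity) hd
      nlinarith
    rw [hw]
    simpa using this
  have hτ2 : τ 2 = 0 := by
    have h3 : τ ((2 : ℕ) : ZMod n) = ((2 : ℕ) : ZMod 2) := map_natCast τ 2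
    have h4 : ((2 : ℕ) : ZMod 2) = 0 := by decide
    rw [h4] at h3
    simpa using h3
  have hA := hperf 2
  rw [if_neg h2ne, split] at hA
  have hB := hperf (2 + w)
  rw [if_neg h2wne, split] at hB
  have hB1 : ∑ j ∈ univ.filter (fun j => τ j = e), h j * h (j + (2 + w)) =
      ∑ j ∈ univ.filter (fun j => τ j = e), h j * h (j + 2) := by
    refine Finset.sum_congr rfl fun j hj => ?_
    rw [← add_assoc, hper (j + 2) (by rw [map_add, hτ2, add_zero]; exact (mem_filter.1 hj).2)]
  have hB2 : ∑ j ∈ univ.filter (fun j => τ j = e + 1), h j * h (j + (2 + w)) =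
      -∑ j ∈ univ.filter (fun j => τ j = e + 1), h j * h (j + 2) := by
    rw [← Finset.sum_neg_distrib]
    refine Finset.sum_congr rfl fun j hj => ?_
    rw [← add_assoc, hneg (j + 2) (by rw [map_add, hτ2, add_zero]; exact (mem_filter.1 hj).2)]
    ring
  rw [hB1, hB2] at hB
  have hC : ∑ j ∈ univ.filter (fun j => τ j = e + 1), h j * h (j + 2) = 0 := by linarith
  have hP : ∏ j ∈ univ.filter (fun j => τ j = e + 1), h j * h (j + 2) = 1 := by
    rw [Finset.prod_mul_distrib]
    have : ∏ j ∈ univ.filter (fun j => τ j = e + 1), h (j + 2) =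
        ∏ j ∈ univ.filter (fun j => τ j = e + 1), h j := by
      rw [Finset.prod_filter, Finset.prod_filter,
        ← Equiv.prod_comp (Equiv.addRight (2 : ZMod n)) (fun j => if τ j = e + 1 then h j else 1)]
      refine Finset.prod_congr rfl fun j _ => ?_
      simp only [Equiv.coe_addRight, map_add, hτ2, add_zero]
    rw [this, ← Finset.prod_mul_distrib]
    exact Finset.prod_eq_one fun j _ => hpp j
  have hfin := (sum_mod_four (univ.filter (fun j => τ j = e + 1)) (fun j => h j * h (j + 2))
    (fun j => hpm2 j (j + 2))).2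
  rw [hC, hP, hcard] at hfin
  obtain ⟨k, hk⟩ := huo
  have : ((2 * u ^ 2 : ℕ) : ℤ) = 4 * (2 * k ^ 2 + 2 * k) + 2 := by
    rw [hk]
    push_cast
    ring
  rw [this] at hfin
  omega

end Vale.Agent.P033
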