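import Mathlib

/-! # P033: perfect sequences on cyclic groups, pushforward, unit invariance -/

namespace Vale.Agent.P033

open Finset

/-- perfect periodic autocorrelation with peak `N` -/
def Perf {q : ℕ} [NeZero q] (f : ZMod q → ℤ) (N : ℤ) : Prop :=
  ∀ k : ZMod q, ∑ j, f j * f (j + k) = if k = 0 then N else 0

/-- sums over the fibres of a homomorphism -/
def push {n r : ℕ} [NeZero n] (π : ZMod n →+* ZMod r) (f : ZMod n → ℤ) (i : ZMod r) : ℤ :=
  ∑ j, if π j = i then f j else 0

theorem Perf.push {n r : ℕ} [NeZero n] [NeZero r] (π : ZMod n →+* ZMod r) {f : ZMod n → ℤ}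
    {N : ℤ} (hf : Perf f N) : Perf (push π f) N := by
  intro k
  have h1 : ∀ i, Vale.Agent.P033.push π f i * Vale.Agent.P033.push π f (i + k) =
      ∑ j, ∑ j', if π j = i then (if π j' = i + k then f j * f j' else 0) else 0 := by
    intro i
    unfold P033.push
    rw [Finset.sum_mul_sum]
    refine Finset.sum_congr rfl fun j _ => Finset.sum_congr rfl fun j' _ => ?_
    split_ifs <;> simp
  simp_rw [h1]
  rw [Finset.sum_comm]
  have h2 : ∀ j, ∑ i, ∑ j', (if π j = i then (if π j' = i + k then f j * f j' else 0) else 0) =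
      ∑ d, if π d = k then f j * f (j + d) else 0 := by
    intro j
    rw [Finset.sum_eq_single (π j)]
    · simp only [if_true]
      rw [← Equiv.sum_comp (Equiv.addLeft j)]
      refine Finset.sum_congr rfl fun d _ => ?_
      simp [map_add]
    · intro i _ hi
      simp [Ne.symm hi]
    · simp
  simp_rw [h2]
  rw [Finset.sum_comm]
  have h3 : ∀ d, (∑ j, if π d = k then f j * f (j + d) else 0) =
      if π d = k then (if d = 0 then N else 0) else 0 := by
    intro d
    split_ifs with h h'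
    · rw [hf d, if_pos h']
    · rw [hf d, if_neg h']
    · simp
  simp_rw [h3]
  rw [Finset.sum_eq_single 0]
  · simp [eq_comm]
  · intro d _ hd
    simp [hd]
  · simp

theorem Perf.sq_le {q : ℕ} [NeZero q] {f : ZMod q → ℤ} {N : ℤ} (hf : Perf f N) (j : ZMod q) :
    f j ^ 2 ≤ N := by
  have h := hf 0
  simp only [add_zero, if_true] at h
  rw [← h]
  have := Finset.single_le_sum (f := fun j => f j * f j) (s := Finset.univ)
    (fun i _ => mul_self_nonneg (f i)) (Finset.mem_univ j)
  simpa [sq] using this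

open AddMonoidAlgebra in
theorem gr_sq {q : ℕ} [NeZero q] {R : Type*} [CommRing R] (f : ZMod q → R) (N : R)
    (hs : ∀ j, f (-j) = f j)
    (hf : ∀ k : ZMod q, ∑ j, f j * f (j + k) = if k = 0 then N else 0) :
    (∑ j, (AddMonoidAlgebra.single j (f j) : AddMonoidAlgebra R (ZMod q))) ^ 2 =
      AddMonoidAlgebra.single 0 N := by
  rw [sq, Finset.sum_mul_sum]
  have h1 : ∀ i : ZMod q, ∑ j, (AddMonoidAlgebra.single i (f i) : AddMonoidAlgebra R (ZMod q)) *
      AddMonoidAlgebra.single j (f j) =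
      ∑ k, AddMonoidAlgebra.single k (f i * f (i + (-k))) := by
    intro i
    rw [← Equiv.sum_comp (Equiv.subRight i)]
    refine Finset.sum_congr rfl fun k _ => ?_
    rw [AddMonoidAlgebra.single_mul_single]
    simp only [Equiv.subRight_apply, add_sub_cancel]
    congr 2
    rw [← hs]
    congr 1
    ring
  simp_rw [h1]
  rw [Finset.sum_comm]
  have h2 : ∀ k : ZMod q, ∑ i, (AddMonoidAlgebra.single k (f i * f (i + (-k))) :
      AddMonoidAlgebra R (ZMod q)) = AddMonoidAlgebra.single k (if k = 0 then N else 0) := by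
    intro k
    have := map_sum (AddMonoidAlgebra.singleAddHom k : R →+ AddMonoidAlgebra R (ZMod q))
      (fun i => f i * f (i + (-k))) Finset.univ
    rw [hf (-k)] at this
    simp only [neg_eq_zero] at this
    exact this.symm
  simp_rw [h2]
  rw [Finset.sum_eq_single 0]
  · simp
  · intro k _ hk
    simp [hk]
  · simp

theorem frob {q : ℕ} [NeZero q] (f : ZMod q → ℤ) (u : ℕ) (hs : ∀ j, f (-j) = f j)
    (hf : Perf f (4 * (u : ℤ) ^ 2)) (l : ℕ) [Fact l.Prime] (h2 : l ≠ 2) (hu : ¬ l ∣ u)
    (hq : IsUnit (l : ZMod q)) (i : ZMod q) :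
    ((f ((l : ZMod q) * i) : ℤ) : ZMod l) = ((f i : ℤ) : ZMod l) := by
  set g : ZMod q → ZMod l := fun j => ((f j : ℤ) : ZMod l) with hg
  set φ : AddMonoidAlgebra (ZMod l) (ZMod q) := ∑ j, AddMonoidAlgebra.single j (g j) with hφ
  have hsq : φ ^ 2 = AddMonoidAlgebra.single 0 ((4 * (u : ZMod l) ^ 2)) := by
    apply gr_sq g
    · intro j
      simp only [hg, hs j]
    · intro k
      have := congrArg (fun z : ℤ => (z : ZMod l)) (hf k)
      simp only [hg]
      push_cast at this ⊢
      rw [this]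
  have hlodd : l % 2 = 1 := (Nat.Prime.eq_two_or_odd (Fact.out : l.Prime)).resolve_left h2
  obtain ⟨m, hm⟩ : ∃ m, l = 2 * m + 1 := ⟨l / 2, by omega⟩
  have hfer : (4 * (u : ZMod l) ^ 2) ^ m = 1 := by
    have h2u : (2 * (u : ZMod l)) ≠ 0 := by
      have h2' : ((2 : ℕ) : ZMod l) ≠ 0 := by
        rw [Ne, ZMod.natCast_eq_zero_iff]
        intro h
        exact h2 ((Nat.prime_dvd_prime_iff_eq Fact.out Nat.prime_two).1 h)
      have hu' : ((u : ℕ) : ZMod l) ≠ 0 := by
        rw [Ne, ZMod.natCast_eq_zero_iff]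
        exact hu
      have := mul_ne_zero h2' hu'
      simpa using this
    have := ZMod.pow_card_sub_one_eq_one h2u
    have h3 : l - 1 = 2 * m := by omega
    rw [h3, pow_mul] at this
    rw [← this]
    congr 1
    ring
  have hpow : φ ^ l = φ := by
    have : φ ^ l = (φ ^ 2) ^ m * φ := by
      rw [← pow_mul, ← pow_succ]
      exact congrArg (fun k => φ ^ k) hm
    rw [this, hsq, AddMonoidAlgebra.single_pow, hfer]
    simp [AddMonoidAlgebra.one_def.symm]
  have : CharP (AddMonoidAlgebra (ZMod l) (ZMod q)) l :=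
    charP_of_injective_algebraMap
      (algebraMap (ZMod l) (AddMonoidAlgebra (ZMod l) (ZMod q))).injective l
  have hfrob : φ ^ l = ∑ j, AddMonoidAlgebra.single ((l : ZMod q) * j) (g j) := by
    rw [hφ, sum_pow_char]
    refine Finset.sum_congr rfl fun j _ => ?_
    rw [AddMonoidAlgebra.single_pow, ZMod.pow_card, nsmul_eq_mul]
  rw [hpow, hφ] at hfrob
  have hc := congrArg (fun z : AddMonoidAlgebra (ZMod l) (ZMod q) =>
    z.coeff ((l : ZMod q) * i)) hfrob
  simp only [AddMonoidAlgebra.coeff_sum, Finsupp.finsetSum_apply,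
    AddMonoidAlgebra.coeff_single, Finsupp.single_apply] at hc
  rw [Finset.sum_eq_single ((l : ZMod q) * i), Finset.sum_eq_single i] at hc
  · simpa using hc
  · intro j _ hj
    rw [if_neg]
    intro h
    exact hj (hq.mul_left_cancel h)
  · simp
  · intro j _ hj
    rw [if_neg hj]
  · simp

/-- A symmetric perfect sequence with square peak is invariant under all units. -/
theorem unit_inv {q : ℕ} [NeZero q] (f : ZMod q → ℤ) (u : ℕ) (hu : 0 < u)
    (hs : ∀ j, f (-j) = f j)
    (hf : Perf f (4 * (u : ℤ) ^ 2)) (s : ZMod q) (h1 : IsUnit s) (i : ZMod q) :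
    f (s * i) = f i := by
  obtain ⟨l, hl, hlp, hls⟩ := Nat.forall_exists_prime_gt_and_eq_mod h1 (4 * u + 2)
  have := Fact.mk hlp
  have hb : ∀ j, |f j| ≤ 2 * u := by
    intro j
    have := hf.sq_le j
    apply abs_le_of_sq_le_sq _ (by positivity)
    nlinarith
  have h := frob f u hs hf l (by omega) (fun h => by have := Nat.le_of_dvd hu h; omega)
    (by rw [hls]; exact h1) i
  rw [hls] at h
  rw [ZMod.intCast_eq_intCast_iff_dvd_sub] at h
  by_contra hne
  have hne' : f i - f (s * i) ≠ 0 := fun h' => hne (by linarith)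
  have := Int.le_of_dvd (abs_pos.2 hne') ((dvd_abs _ _).2 h)
  have h3 := abs_sub (f i) (f (s * i))
  have h4 := hb i
  have h5 := hb (s * i)
  have : (4 * (u : ℤ) + 2) < l := by exact_mod_cast hl
  linarith

/-- values of a perfect function on `ZMod p` that is constant off zero -/
theorem prime_level {p : ℕ} [NeZero p] (hp : 2 < p) (E : ZMod p → ℤ) (u : ℕ)
    (hf : Perf E (4 * (u : ℤ) ^ 2)) (hE : ∀ y, y ≠ 0 → E y = E 1) :
    (p : ℤ) * E 1 = 0 ∨ (p : ℤ) * E 1 = 4 * u ∨ (p : ℤ) * E 1 = -(4 * u) := by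
  have : Fact (1 < p) := ⟨by omega⟩
  have hs : ∀ g : ZMod p → ℤ, (∀ y, y ≠ 0 → g y = g 1) → ∑ y, g y = g 0 + (p - 1) * g 1 := by
    intro g hg
    rw [← Finset.add_sum_erase _ _ (Finset.mem_univ 0)]
    congr 1
    rw [Finset.sum_congr rfl (fun y hy => hg y (Finset.ne_of_mem_erase hy))]
    rw [Finset.sum_const, Finset.card_erase_of_mem (Finset.mem_univ _), Finset.card_univ,
      ZMod.card]
    rw [nsmul_eq_mul, Nat.cast_sub (by omega)]
    simp
  have hA : E 0 * E 0 + (p - 1) * (E 1 * E 1) = 4 * (u : ℤ) ^ 2 := by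
    have := hf 0
    simp only [add_zero, if_true] at this
    rw [← this, hs (fun y => E y * E y) (fun y hy => by simp only [hE y hy])]
  have hT : (E 0 + (p - 1) * E 1) ^ 2 = 4 * (u : ℤ) ^ 2 := by
    have h1 : ∑ k, ∑ j, E j * E (j + k) = 4 * (u : ℤ) ^ 2 := by
      rw [Finset.sum_congr rfl (fun k _ => hf k)]
      simp
    rw [← hs E hE]
    rw [Finset.sum_comm] at h1
    rw [← h1, sq, Finset.sum_mul_sum]
    refine Finset.sum_congr rfl fun j _ => ?_
    rw [← Equiv.sum_comp (Equiv.addLeft j)]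
    rfl
  set e0 := E 0
  set e1 := E 1
  have hp' : (2 : ℤ) < p := by exact_mod_cast hp
  have h3 : e1 * (2 * e0 + (p - 2) * e1) = 0 := by
    have : ((p : ℤ) - 1) * (e1 * (2 * e0 + (p - 2) * e1)) = 0 := by linarith [hA, hT]
    rcases mul_eq_zero.1 this with h | h
    · omega
    · exact h
  rcases mul_eq_zero.1 h3 with h | h
  · left
    rw [h, mul_zero]
  · right
    have h5 : ((p : ℤ) * e1 - 4 * u) * (p * e1 + 4 * u) = 0 := by
      have h6 : 2 * e0 = -((p - 2) * e1) := by linarith
      have h7 : (2 * e0) ^ 2 = ((p - 2) * e1) ^ 2 := by rw [h6]; ring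
      linarith [hA, h7]
    rcases mul_eq_zero.1 h5 with h | h
    · left; linarith
    · right; linarith

end Vale.Agent.P033
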