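import Vale.Agent.Lib.P033.Core

/-! # P033: complex perfect functions on `ZMod (p^m)` invariant under units -/

namespace Vale.Agent.P033

open Finset

/-- complex perfect function -/
def PerfC {q : ℕ} [NeZero q] (f : ZMod q → ℂ) (N : ℂ) : Prop :=
  ∀ k : ZMod q, ∑ j, f j * f (j + k) = if k = 0 then N else 0

/-- fibre sums, complex version -/
noncomputable def pushC {n r : ℕ} [NeZero n] (π : ZMod n →+* ZMod r) (f : ZMod n → ℂ)
    (i : ZMod r) : ℂ :=
  ∑ j, if π j = i then f j else 0

theorem PerfC.pushC {n r : ℕ} [NeZero n] [NeZero r] (π : ZMod n →+* ZMod r) {f : ZMod n → ℂ}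
    {N : ℂ} (hf : PerfC f N) : PerfC (pushC π f) N := by
  intro k
  have h1 : ∀ i, Vale.Agent.P033.pushC π f i * Vale.Agent.P033.pushC π f (i + k) =
      ∑ j, ∑ j', if π j = i then (if π j' = i + k then f j * f j' else 0) else 0 := by
    intro i
    unfold Vale.Agent.P033.pushC
    rw [Finset.sum_mul_sum]
    refine Finset.sum_congr rfl fun j _ => Finset.sum_congr rfl fun j' _ => ?_
    split_ifs <;> simp
  simp_rw [h1]
  rw [Finset.sum_comm]
  have h2 : ∀ j, ∑ i, ∑ j', (if π j = i then (if π j' = i + k then f j * f j' else 0) else 0) =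
      ∑ d, if π d = k then f j * f (j + d) else 0 := by
    intro j
    rw [Finset.sum_eq_single (π j)]
    · simp only [if_true]
      rw [← Equiv.sum_comp (Equiv.addLeft j)]
      refine Finset.sum_congr rfl fun d _ => ?_
      simp [map_add]
    · intro i _ hi
      simp [Ne.symm hi]
    · simp
  simp_rw [h2]
  rw [Finset.sum_comm]
  have h3 : ∀ d, (∑ j, if π d = k then f j * f (j + d) else 0) =
      if π d = k then (if d = 0 then N else 0) else 0 := by
    intro d
    split_ifs with h h'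
    · rw [hf d, if_pos h']
    · rw [hf d, if_neg h']
    · simp
  simp_rw [h3]
  rw [Finset.sum_eq_single 0]
  · simp [eq_comm]
  · intro d _ hd
    simp [hd]
  · simp

section PP

variable {p : ℕ} (hp : p.Prime)
include hp

theorem decomp (m : ℕ) (j : ZMod (p ^ m)) :
    ∃ i : ℕ, ∃ y : ZMod (p ^ m), IsUnit y ∧ j = (p : ZMod (p ^ m)) ^ i * y := by
  have : NeZero (p ^ m) := ⟨(pow_pos hp.pos m).ne'⟩
  have h1 : ((j.val : ℕ) : ZMod (p ^ m)) = j := ZMod.natCast_zmod_val j
  generalize j.val = k at h1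
  subst h1
  rcases Nat.eq_zero_or_pos k with h0 | h0
  · refine ⟨m, 1, isUnit_one, ?_⟩
    rw [h0]
    have : ((p ^ m : ℕ) : ZMod (p ^ m)) = 0 := ZMod.natCast_self _
    push_cast at this
    rw [Nat.cast_zero, this, zero_mul]
  · obtain ⟨i, y, hy, hk⟩ := Nat.exists_eq_pow_mul_and_not_dvd h0.ne' p hp.one_lt.ne'
    refine ⟨i, (y : ZMod (p ^ m)), ?_, ?_⟩
    · rw [ZMod.isUnit_iff_coprime]
      exact Nat.Coprime.pow_right _ ((Nat.Prime.coprime_iff_not_dvd hp).2 hy).symm
    · rw [hk]
      push_cast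
      rfl

omit hp in
theorem pow_eq_zero' (m i : ℕ) (hi : m ≤ i) : (p : ZMod (p ^ m)) ^ i = 0 := by
  have : ((p ^ i : ℕ) : ZMod (p ^ m)) = 0 := by
    rw [ZMod.natCast_eq_zero_iff]
    exact pow_dvd_pow p hi
  simpa using this

theorem pow_ne_zero'' (m i : ℕ) (hi : i < m) : (p : ZMod (p ^ m)) ^ i ≠ 0 := by
  intro h
  have h1 : ((p ^ i : ℕ) : ZMod (p ^ m)) = 0 := by simpa using h
  rw [ZMod.natCast_eq_zero_iff] at h1
  have := (Nat.pow_dvd_pow_iff_le_right hp.one_lt).1 h1
  omega

omit hp in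
/-- adding a multiple of `p` keeps a unit a unit -/
theorem unit_add (m : ℕ) (y z : ZMod (p ^ m)) (hy : IsUnit y) :
    IsUnit (y + (p : ZMod (p ^ m)) * z) := by
  have hnil : IsNilpotent ((p : ZMod (p ^ m)) * z) := by
    refine ⟨m, ?_⟩
    rw [mul_pow, pow_eq_zero' m m le_rfl, zero_mul]
  exact IsNilpotent.isUnit_add_left_of_commute hnil hy (Commute.all _ _)

theorem ker_form (m : ℕ) (π : ZMod (p ^ (m + 1)) →+* ZMod (p ^ m)) (d : ZMod (p ^ (m + 1)))
    (hd : π d = 0) : ∃ z, d = (p : ZMod (p ^ (m + 1))) ^ m * z := by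
  obtain ⟨i, y, hy, rfl⟩ := decomp hp (m + 1) d
  by_cases hi : i < m
  · exfalso
    rw [map_mul, map_pow, map_natCast] at hd
    have := (hy.map π).mul_left_eq_zero.1 hd
    exact pow_ne_zero'' hp m i hi this
  · refine ⟨(p : ZMod (p ^ (m + 1))) ^ (i - m) * y, ?_⟩
    rw [← mul_assoc, ← pow_add]
    congr 2
    omega

omit hp in
theorem inv_low (m i : ℕ) (hi : i < m) (F : ZMod (p ^ (m + 1)) → ℂ)
    (hinv : ∀ s j, IsUnit s → F (s * j) = F j) (y z : ZMod (p ^ (m + 1))) (hy : IsUnit y) :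
    F ((p : ZMod (p ^ (m + 1))) ^ i * y + (p : ZMod (p ^ (m + 1))) ^ m * z) =
      F ((p : ZMod (p ^ (m + 1))) ^ i) := by
  have h1 : (p : ZMod (p ^ (m + 1))) ^ i * y + (p : ZMod (p ^ (m + 1))) ^ m * z =
      (y + p * ((p : ZMod (p ^ (m + 1))) ^ (m - i - 1) * z)) *
        (p : ZMod (p ^ (m + 1))) ^ i := by
    have h2 : (p : ZMod (p ^ (m + 1))) ^ m =
        (p : ZMod (p ^ (m + 1))) ^ i * (p * (p : ZMod (p ^ (m + 1))) ^ (m - i - 1)) := by
      rw [← pow_succ', ← pow_add]
      congr 1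
      omega
    rw [h2]
    ring
  rw [h1, hinv _ _ (unit_add _ _ _ hy)]

theorem inv_top (m : ℕ) (F : ZMod (p ^ (m + 1)) → ℂ)
    (hinv : ∀ s j, IsUnit s → F (s * j) = F j) (z : ZMod (p ^ (m + 1)))
    (hz : (p : ZMod (p ^ (m + 1))) ^ m * z ≠ 0) :
    F ((p : ZMod (p ^ (m + 1))) ^ m * z) = F ((p : ZMod (p ^ (m + 1))) ^ m) := by
  obtain ⟨i, y, hy, rfl⟩ := decomp hp (m + 1) z
  rcases Nat.eq_zero_or_pos i with h0 | h0
  · rw [h0, pow_zero, one_mul, mul_comm, hinv _ _ hy]
  · exfalso
    apply hz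
    rw [← mul_assoc, ← pow_add, pow_eq_zero' (m + 1) (m + i) (by omega), zero_mul]

variable [NeZero p]

theorem top_sq (m : ℕ) (F : ZMod (p ^ (m + 1)) → ℂ) (N : ℂ) (hF : PerfC F N)
    (hinv : ∀ s j, IsUnit s → F (s * j) = F j) :
    (F 0 - F ((p : ZMod (p ^ (m + 1))) ^ m)) ^ 2 = N := by
  set d := (p : ZMod (p ^ (m + 1))) ^ m with hd
  have hd0 : d ≠ 0 := pow_ne_zero'' hp (m + 1) m (by omega)
  have h0 := hF 0
  rw [if_pos rfl] at h0
  simp only [add_zero] at h0
  have h1 := hF d
  rw [if_neg hd0] at h1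
  have h2 : ∑ j, F (j + d) * F (j + d) = N := by
    rw [← h0]
    exact Equiv.sum_comp (Equiv.addRight d) (fun j => F j * F j)
  have h3 : ∑ j, (F j - F (j + d)) ^ 2 = 2 * N := by
    have : ∀ j, (F j - F (j + d)) ^ 2 =
        F j * F j + F (j + d) * F (j + d) - 2 * (F j * F (j + d)) := fun j => by ring
    simp_rw [this]
    rw [Finset.sum_sub_distrib, Finset.sum_add_distrib, h0, h2, ← Finset.mul_sum, h1]
    ring
  have h4 : ∑ j, (F j - F (j + d)) ^ 2 = (F 0 - F (0 + d)) ^ 2 + (F (-d) - F (-d + d)) ^ 2 := by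
    apply Finset.sum_eq_add
    · intro h
      exact hd0 (neg_eq_zero.1 h.symm)
    · intro j _ hj
      have : F (j + d) = F j := by
        obtain ⟨hj0, hjd⟩ := hj
        obtain ⟨i, y, hy, hjy⟩ := decomp hp (m + 1) j
        rcases lt_trichotomy i m with hi | hi | hi
        · have e1 := inv_low m i hi F hinv y 1 hy
          have e2 := inv_low m i hi F hinv y 0 hy
          rw [mul_one] at e1
          rw [mul_zero, add_zero] at e2
          rw [hjy, hd, e1, e2]
        · rw [hi] at hjy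
          have e1 := inv_top hp m F hinv y (by rw [← hjy]; exact hj0)
          have e2 := inv_top hp m F hinv (y + 1) (by
            rw [mul_add, mul_one, ← hjy, ← hd]
            intro h
            exact hjd (eq_neg_of_add_eq_zero_left h))
          rw [mul_add, mul_one, ← hjy, ← hd] at e2
          rw [← hjy] at e1
          rw [e1, e2]
        · exfalso
          apply hj0
          rw [hjy, pow_eq_zero' (m + 1) i (by omega), zero_mul]
      rw [this, sub_self]
      ring
    · intro h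
      exact absurd (Finset.mem_univ _) h
    · intro h
      exact absurd (Finset.mem_univ _) h
  have h5 : F (-d) = F d := by
    have := hinv (-1) d (isUnit_one.neg)
    rw [neg_one_mul] at this
    exact this
  rw [h3, zero_add, neg_add_cancel, h5] at h4
  linear_combination (-1 / 2 : ℂ) * h4

theorem fiberC_card (m : ℕ) (π : ZMod (p ^ (m + 1)) →+* ZMod (p ^ m)) (i : ZMod (p ^ m)) :
    (univ.filter fun j => π j = i).card = p := by
  have hsurj : Function.Surjective π := ZMod.ringHom_surjective π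
  have h1 : ∀ i', (univ.filter fun j => π j = i').card = (univ.filter fun j => π j = i).card := by
    intro i'
    obtain ⟨d, hd⟩ := hsurj (i - i')
    apply Finset.card_bij (fun j _ => j + d)
    · intro j hj
      simp only [mem_filter, mem_univ, true_and] at hj ⊢
      rw [map_add, hj, hd]
      ring
    · intro a _ b _ h
      exact add_right_cancel h
    · intro b hb
      simp only [mem_filter, mem_univ, true_and] at hb
      refine ⟨b - d, ?_, by ring⟩
      simp only [mem_filter, mem_univ, true_and]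
      rw [map_sub, hb, hd]
      ring
  have h2 := Finset.card_eq_sum_card_fiberwise (f := π) (s := univ) (t := univ)
    (fun x _ => Finset.mem_coe.2 (mem_univ _))
  rw [Finset.sum_congr rfl (fun i' _ => h1 i')] at h2
  simp only [Finset.card_univ, ZMod.card, Finset.sum_const, smul_eq_mul] at h2
  have h3 : p ^ m * p = p ^ m * (univ.filter fun j => π j = i).card := by
    rw [← pow_succ]
    exact h2
  exact (Nat.eq_of_mul_eq_mul_left (pow_pos hp.pos m) h3).symm

theorem push_low (m i : ℕ) (hi : i < m) (π : ZMod (p ^ (m + 1)) →+* ZMod (p ^ m))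
    (F : ZMod (p ^ (m + 1)) → ℂ) (hinv : ∀ s j, IsUnit s → F (s * j) = F j) :
    pushC π F ((p : ZMod (p ^ m)) ^ i) = p * F ((p : ZMod (p ^ (m + 1))) ^ i) := by
  unfold pushC
  rw [← Finset.sum_filter, Finset.sum_congr rfl (g := fun _ => F ((p : ZMod (p ^ (m + 1))) ^ i)),
    Finset.sum_const, fiberC_card hp, nsmul_eq_mul]
  intro j hj
  have h1 := (mem_filter.1 hj).2
  have h2 : π (j - (p : ZMod (p ^ (m + 1))) ^ i) = 0 := by
    rw [map_sub, h1, map_pow, map_natCast, sub_self]
  obtain ⟨z, hz⟩ := ker_form hp m π _ h2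
  have h3 : j = (p : ZMod (p ^ (m + 1))) ^ i * 1 + (p : ZMod (p ^ (m + 1))) ^ m * z := by
    rw [← hz]
    ring
  rw [h3, inv_low m i hi F hinv 1 z isUnit_one]

theorem push_zero (m : ℕ) (π : ZMod (p ^ (m + 1)) →+* ZMod (p ^ m))
    (F : ZMod (p ^ (m + 1)) → ℂ) (hinv : ∀ s j, IsUnit s → F (s * j) = F j) :
    pushC π F 0 = F 0 + (p - 1) * F ((p : ZMod (p ^ (m + 1))) ^ m) := by
  unfold pushC
  rw [← Finset.sum_filter, ← Finset.add_sum_erase _ _ (a := (0 : ZMod (p ^ (m + 1))))
    (by simp), Finset.sum_congr rfl (g := fun _ => F ((p : ZMod (p ^ (m + 1))) ^ m)),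
    Finset.sum_const, Finset.card_erase_of_mem (by simp), fiberC_card hp, nsmul_eq_mul,
    Nat.cast_sub hp.one_lt.le, Nat.cast_one]
  intro j hj
  have h0 := Finset.ne_of_mem_erase hj
  have h1 := (mem_filter.1 (Finset.mem_of_mem_erase hj)).2
  obtain ⟨z, hz⟩ := ker_form hp m π _ h1
  rw [hz]
  apply inv_top hp m F hinv
  rw [← hz]
  exact h0

theorem level (u : ℕ) : ∀ (m : ℕ) (F : ZMod (p ^ m) → ℂ), PerfC F (4 * (u : ℂ) ^ 2) →
    (∀ s j, IsUnit s → F (s * j) = F j) →
    (∃ K : ℤ, |K| ≤ (p : ℤ) ^ m ∧ (p : ℂ) ^ m * F 0 = 2 * u * K) ∧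
    ∀ i < m, ∃ K : ℤ, |K| ≤ 2 * (p : ℤ) ^ i ∧
      (p : ℂ) ^ m * F ((p : ZMod (p ^ m)) ^ i) = 2 * u * K := by
  intro m
  induction m with
  | zero =>
    intro F hF _
    refine ⟨?_, fun i hi => absurd hi (by omega)⟩
    have h0 := hF 0
    have hsub : Subsingleton (ZMod (p ^ 0)) := by
      rw [pow_zero]
      infer_instance
    have h1 : ∑ j, F j * F (j + 0) = F 0 * F 0 := by
      rw [Finset.sum_eq_single (0 : ZMod (p ^ 0))]
      · rw [add_zero]
      · intro b _ hb
        exact absurd (Subsingleton.elim _ _) hb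
      · intro h
        exact absurd (Finset.mem_univ _) h
    rw [h1, if_pos rfl] at h0
    have h2 : (F 0 - 2 * u) * (F 0 + 2 * u) = 0 := by linear_combination h0
    rcases mul_eq_zero.1 h2 with h | h
    · refine ⟨1, by simp, ?_⟩
      push_cast
      linear_combination h
    · refine ⟨-1, by simp, ?_⟩
      push_cast
      linear_combination h
  | succ m ih =>
    intro F hF hinv
    have hdvd : p ^ m ∣ p ^ (m + 1) := pow_dvd_pow p (by omega)
    set π : ZMod (p ^ (m + 1)) →+* ZMod (p ^ m) := ZMod.castHom hdvd _ with hπ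
    have hF' : PerfC (pushC π F) (4 * (u : ℂ) ^ 2) := hF.pushC π
    have hinv' : ∀ s j, IsUnit s → pushC π F (s * j) = pushC π F j := by
      intro s j hs
      obtain ⟨s', hs'⟩ := ZMod.unitsMap_surjective hdvd hs.unit
      have hs'' : π s' = s := by
        have := congrArg Units.val hs'
        rw [hπ]
        simpa [ZMod.unitsMap_def] using this
      unfold pushC
      rw [← Equiv.sum_comp (Units.mulLeft s')]
      refine Finset.sum_congr rfl fun i _ => ?_
      have h1 : (π (s' : ZMod (p ^ (m + 1))) * π i = s * j) ↔ π i = j := by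
        rw [hs'']
        constructor
        · intro h
          exact hs.mul_left_cancel h
        · intro h
          rw [h]
      simp only [Units.mulLeft_apply, map_mul, h1, hinv _ _ s'.isUnit]
    obtain ⟨⟨K, hK, hK0⟩, hlow⟩ := ih (pushC π F) hF' hinv'
    have htop := top_sq hp m F _ hF hinv
    obtain ⟨e, he, hee⟩ : ∃ e : ℤ, (e = 1 ∨ e = -1) ∧
        F 0 - F ((p : ZMod (p ^ (m + 1))) ^ m) = 2 * u * e := by
      set x := F 0 - F ((p : ZMod (p ^ (m + 1))) ^ m)
      have h2 : (x - 2 * u) * (x + 2 * u) = 0 := by linear_combination htop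
      rcases mul_eq_zero.1 h2 with h | h
      · exact ⟨1, Or.inl rfl, by push_cast; linear_combination h⟩
      · exact ⟨-1, Or.inr rfl, by push_cast; linear_combination h⟩
    have hz := push_zero hp m π F hinv
    rw [hz] at hK0
    have hp1 : (1 : ℤ) ≤ p := by exact_mod_cast hp.one_lt.le
    have hpm : (0 : ℤ) < (p : ℤ) ^ m := by positivity
    have habs : |e| = 1 := by
      rcases he with h | h <;> rw [h] <;> norm_num
    refine ⟨⟨K + e * (p ^ m * (p - 1)), ?_, ?_⟩, ?_⟩
    · calc |K + e * ((p : ℤ) ^ m * (p - 1))| ≤ |K| + |e * ((p : ℤ) ^ m * (p - 1))| :=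
            abs_add_le _ _
        _ = |K| + (p : ℤ) ^ m * (p - 1) := by
            rw [abs_mul, habs, one_mul,
              abs_of_nonneg (mul_nonneg hpm.le (by linarith : (0 : ℤ) ≤ (p : ℤ) - 1))]
        _ ≤ (p : ℤ) ^ m + (p : ℤ) ^ m * (p - 1) := by linarith
        _ = (p : ℤ) ^ (m + 1) := by ring
    · push_cast
      linear_combination hK0 + (p : ℂ) ^ m * (p - 1) * hee
    · intro i hi
      rcases Nat.lt_succ_iff_lt_or_eq.1 hi with h | h
      · obtain ⟨K', hK', hK''⟩ := hlow i h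
        refine ⟨K', hK', ?_⟩
        rw [push_low hp m i h π F hinv] at hK''
        linear_combination hK''
      · subst h
        refine ⟨K - e * p ^ i, ?_, ?_⟩
        · calc |K - e * (p : ℤ) ^ i| ≤ |K| + |e * (p : ℤ) ^ i| := abs_sub _ _
            _ = |K| + (p : ℤ) ^ i := by
              rw [abs_mul, habs, one_mul, abs_of_nonneg hpm.le]
            _ ≤ 2 * (p : ℤ) ^ i := by linarith
        · push_cast
          linear_combination hK0 - (p : ℂ) ^ i * hee
end PP

end Vale.Agent.P033
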