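import Vale.Agent.Lib.P033.Support

/-! # P033: multipliers congruent to 3 modulo 4 -/

namespace Vale.Agent.P033

open Finset

variable {n : ℕ} [NeZero n]

/-- recentred pushforward is symmetric -/
theorem recentre {r : ℕ} [NeZero r] (π : ZMod n →+* ZMod r) (f : ZMod n → ℤ) (s : (ZMod n)ˣ)
    (c d : ZMod n) (hs : ∀ j, f (s * j) = f (j + c)) (hπ : π s = -1) (hd : c = 2 * d)
    (i : ZMod r) : push π (fun j => f (j + d)) (-i) = push π (fun j => f (j + d)) i := by
  rw [push_shift, push_shift]
  have h1 := push_mult π f s c hs (i - π d)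
  rw [hπ, hd, map_mul, map_ofNat] at h1
  rw [show -i + π d = -1 * (i - π d) by ring, h1]
  congr 1
  ring

theorem even_form (τ : ZMod n →+* ZMod 2) (c : ZMod n)
    (hc : τ c = 0) : ∃ d, c = 2 * d := by
  have h1 : ((c.val : ℕ) : ZMod n) = c := ZMod.natCast_zmod_val c
  generalize c.val = k at h1
  subst h1
  rw [map_natCast, ZMod.natCast_eq_zero_iff] at hc
  obtain ⟨m, rfl⟩ := hc
  exact ⟨(m : ZMod n), by push_cast; ring⟩

/-- an involution congruent to 3 modulo 4 is not a multiplier -/
theorem no_involution {u : ℕ} (huo : Odd u) (hu1 : 1 < u) (hn : n = 4 * u ^ 2)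
    (h : ZMod n → ℤ) (hpm : ∀ j, h j = 1 ∨ h j = -1) (hperf : Perf h (4 * (u : ℤ) ^ 2))
    (s : (ZMod n)ˣ) (c : ZMod n) (hs : ∀ j, h (s * j) = h (j + c))
    (hs2 : (s : ZMod n) * s = 1) (hs4 : (s : ZMod n).val % 4 = 3) : False := by
  have hupos : 0 < u := huo.pos
  have hd2 : 2 ∣ n := ⟨2 * u ^ 2, by rw [hn]; ring⟩
  set τ : ZMod n →+* ZMod 2 := ZMod.castHom hd2 _ with hτ
  have hN : (4 * (u : ℤ) ^ 2) ≠ 0 := by positivity
  have hc0 := shift_even hperf hN τ s c hs
  obtain ⟨d, hd⟩ := even_form τ c hc0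
  have hper := add_mul_zero hperf hN s c hs2 hs
  have hsv : (((s : ZMod n).val : ℕ) : ZMod n) = s := ZMod.natCast_zmod_val _
  have hslt : (s : ZMod n).val < n := ZMod.val_lt _
  set a := (s : ZMod n).val with ha
  have ha2 : n ∣ (a - 1) * (a + 1) := by
    rw [← ZMod.natCast_eq_zero_iff]
    rw [Nat.cast_mul, Nat.cast_sub (by omega), Nat.cast_add, hsv]
    push_cast
    linear_combination hs2
  by_cases hcase : u ^ 2 ∣ a - 1
  · -- s = 1 + n/2
    obtain ⟨x, hx⟩ := hcase
    have hu2 : u ^ 2 % 4 = 1 := by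
      obtain ⟨k, hk⟩ := huo
      rw [hk, show (2 * k + 1) ^ 2 = 4 * (k ^ 2 + k) + 1 by ring]
      omega
    have hx2 : x % 4 = 2 := by
      have h1 : (u ^ 2 * x) % 4 = 2 := by omega
      rw [Nat.mul_mod, hu2] at h1
      omega
    have hxlt : x < 4 := by
      by_contra hcon
      have : u ^ 2 * 4 ≤ u ^ 2 * x := Nat.mul_le_mul_left _ (by omega)
      omega
    have hx3 : x = 2 := by omega
    have hsw : (s : ZMod n) = 1 + ((2 * u ^ 2 : ℕ) : ZMod n) := by
      rw [← hsv, show a = 1 + 2 * u ^ 2 by rw [hx3] at hx; omega]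
      push_cast
      ring
    set w : ZMod n := ((2 * u ^ 2 : ℕ) : ZMod n) with hw
    have hww : w + w = 0 := by
      rw [hw, ← Nat.cast_add, ZMod.natCast_eq_zero_iff, hn]
      exact ⟨1, by ring⟩
    have h2c : 2 * c = 0 := by
      rw [hsw] at hper
      have h3 : w * c = 0 := by
        rw [hd]
        linear_combination d * hww
      linear_combination hper - h3
    have hcw : c = 0 ∨ c = w := by
      have h1 : ((c.val : ℕ) : ZMod n) = c := ZMod.natCast_zmod_val c
      have hlt : c.val < n := ZMod.val_lt c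
      have h4 : n ∣ 2 * c.val := by
        rw [← ZMod.natCast_eq_zero_iff, Nat.cast_mul, h1]
        exact_mod_cast h2c
      generalize c.val = cv at h1 hlt h4
      rw [hn] at h4 hlt
      obtain ⟨y, hy⟩ := h4
      have hy2 : y < 2 := by
        by_contra hcon
        have : 4 * u ^ 2 * 2 ≤ 4 * u ^ 2 * y := Nat.mul_le_mul_left _ (by omega)
        omega
      rcases Nat.lt_succ_iff_lt_or_eq.1 hy2 with h5 | h5
      · left
        rw [← h1, show cv = 0 by
          have : y = 0 := by omega
          rw [this] at hy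
          omega]
        simp
      · right
        rw [← h1, hw, show cv = 2 * u ^ 2 by
          rw [h5] at hy
          omega]
    have hwj : ∀ j : ZMod n, (τ j = 0 → w * j = 0) ∧ (τ j = 1 → w * j = w) := by
      intro j
      have h1 : ((j.val : ℕ) : ZMod n) = j := ZMod.natCast_zmod_val j
      generalize j.val = k at h1
      subst h1
      constructor
      · intro h0
        rw [map_natCast, ZMod.natCast_eq_zero_iff] at h0
        obtain ⟨m, rfl⟩ := h0
        push_cast
        linear_combination (m : ZMod n) * hww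
      · intro h0
        have h3 : k % 2 = 1 := by
          by_contra hcon
          have : (2 : ℕ) ∣ k := by omega
          rw [← ZMod.natCast_eq_zero_iff, ← map_natCast τ, h0] at this
          exact one_ne_zero this
        obtain ⟨m, hm⟩ : ∃ m, k = 2 * m + 1 := ⟨k / 2, by omega⟩
        rw [hm]
        push_cast
        linear_combination (m : ZMod n) * hww
    rcases hcw with h0 | h0
    · apply caseTwo huo hu1 hn h hpm hperf τ 1
      intro j hj
      have h1 := hs j
      rw [hsw, h0, add_zero, add_mul, one_mul, (hwj j).2 hj] at h1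
      exact h1
    · apply caseTwo huo hu1 hn h hpm hperf τ 0
      intro j hj
      have h1 := hs j
      rw [hsw, h0, add_mul, one_mul, (hwj j).1 hj, add_zero] at h1
      exact h1.symm
  · -- some prime p with s = -1 mod p^(2e)
    obtain ⟨p, k, hp, hpk, hnd⟩ : ∃ p k : ℕ, p.Prime ∧ p ^ k ∣ u ^ 2 ∧ ¬ p ^ k ∣ a - 1 := by
      by_contra hcon
      push Not at hcon
      apply hcase
      rw [← Nat.factorization_prime_le_iff_dvd (by positivity) (by omega)]
      intro p hp
      rw [← Nat.Prime.pow_dvd_iff_le_factorization hp (by omega)]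
      exact hcon p _ hp (Nat.ordProj_dvd _ _)
    have hpu : p ∣ u := by
      have hk0 : k ≠ 0 := by
        rintro rfl
        exact hnd (by simp)
      exact hp.dvd_of_dvd_pow ((dvd_pow_self p hk0).trans hpk)
    have hp2 : p ≠ 2 := by
      rintro rfl
      obtain ⟨k, hk⟩ := huo
      omega
    obtain ⟨e, v, hv, huv⟩ := Nat.exists_eq_pow_mul_and_not_dvd hupos.ne' p hp.one_lt.ne'
    have he : 0 < e := by
      rcases Nat.eq_zero_or_pos e with h0 | h0
      · rw [h0, pow_zero, one_mul] at huv
        exact absurd (huv ▸ hpu) hv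
      · exact h0
    have hPn : p ^ (2 * e) ∣ n := ⟨4 * v ^ 2, by rw [hn, huv]; ring⟩
    have hcop : (p ^ (2 * e)).Coprime (a - 1) ∨ (p ^ (2 * e)).Coprime (a + 1) := by
      by_contra hcon
      push Not at hcon
      obtain ⟨h1, h2⟩ := hcon
      have e1 : p ∣ a - 1 := by
        by_contra h3
        exact h1 (Nat.Coprime.pow_left _ ((Nat.Prime.coprime_iff_not_dvd hp).2 h3))
      have e2 : p ∣ a + 1 := by
        by_contra h3
        exact h2 (Nat.Coprime.pow_left _ ((Nat.Prime.coprime_iff_not_dvd hp).2 h3))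
      have e3 : p ∣ 2 := by
        have := (Nat.dvd_sub e2 e1)
        rwa [show a + 1 - (a - 1) = 2 by omega] at this
      exact hp2 ((Nat.prime_dvd_prime_iff_eq hp Nat.prime_two).1 e3)
    have hkle : p ^ k ∣ p ^ (2 * e) := by
      apply pow_dvd_pow
      by_contra hcon
      have h1 : p ^ (2 * e + 1) ∣ u ^ 2 := (pow_dvd_pow p (by omega)).trans hpk
      rw [huv, mul_pow, ← pow_mul, show e * 2 = 2 * e by ring, pow_succ] at h1
      have h2 := Nat.dvd_of_mul_dvd_mul_left (pow_pos hp.pos (2 * e)) h1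
      exact hv (hp.dvd_of_dvd_pow h2)
    have hP : p ^ (2 * e) ∣ a + 1 := by
      rcases hcop with h1 | h1
      · exact h1.dvd_of_dvd_mul_left (hPn.trans ha2)
      · exact absurd (hkle.trans (h1.dvd_of_dvd_mul_right (hPn.trans ha2))) hnd
    have h4P : 4 * p ^ (2 * e) ∣ a + 1 := by
      apply Nat.Coprime.mul_dvd_of_dvd_of_dvd _ (by omega) hP
      exact Nat.Coprime.pow_right _ (Nat.Coprime.pow_left 2
        ((Nat.coprime_primes Nat.prime_two hp).2 (Ne.symm hp2)))
    have h4n : 4 * p ^ (2 * e) ∣ n := ⟨v ^ 2, by rw [hn, huv]; ring⟩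
    have hNZ : NeZero (4 * p ^ (2 * e)) := ⟨by have := hp.pos; positivity⟩
    set π : ZMod n →+* ZMod (4 * p ^ (2 * e)) := ZMod.castHom h4n _ with hπ
    have hπs : π s = -1 := by
      rw [← hsv, map_natCast, eq_neg_iff_add_eq_zero]
      have := (ZMod.natCast_eq_zero_iff (a + 1) (4 * p ^ (2 * e))).2 h4P
      push_cast at this
      exact this
    exact caseOne hp hp2 he huv hv huo hn (fun j => h (j + d)) (fun j => hpm _)
      (hperf.shift d) π (fun i => recentre π h s c d hs hπs hd i)

end Vale.Agent.P033
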