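import Vale.Agent.Lib.P033.PartA

/-! # P033: multipliers congruent to -1 modulo `w^2` -/

namespace Vale.Agent.P033

open Finset

variable {n : ℕ} [NeZero n]

theorem push_abs_le {r m : ℕ} [NeZero r] (π : ZMod n →+* ZMod r) (f : ZMod n → ℤ)
    (hf : ∀ j, f j = 1 ∨ f j = -1) (hn : r * m = n) (i : ZMod r) : |push π f i| ≤ m := by
  have h1 : (univ.filter fun j => π j = i).card = m := by
    have := fiber_card π i
    exact Nat.eq_of_mul_eq_mul_left (Nat.pos_of_ne_zero (NeZero.ne r)) (this.trans hn.symm)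
  have h2 : push π f i = ∑ j ∈ univ.filter fun j => π j = i, f j := by
    unfold push
    rw [Finset.sum_filter]
  rw [h2]
  calc |∑ j ∈ univ.filter fun j => π j = i, f j|
      ≤ ∑ j ∈ univ.filter fun j => π j = i, |f j| := Finset.abs_sum_le_sum_abs _ _
    _ = ∑ j ∈ univ.filter fun j => π j = i, 1 := by
        refine Finset.sum_congr rfl fun j _ => ?_
        rcases hf j with h | h <;> rw [h] <;> norm_num
    _ = m := by
        rw [Finset.sum_const, h1]
        simp

theorem partB {u w μ : ℕ} (huo : Odd u) (hn : n = 4 * u ^ 2) (huw : u = w * μ)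
    (hcop : Nat.Coprime w μ) (h : ZMod n → ℤ) (hpm : ∀ j, h j = 1 ∨ h j = -1)
    (hperf : Perf h (4 * (u : ℤ) ^ 2)) (t : (ZMod n)ˣ) (c : ZMod n)
    (ht : ∀ j, h (t * j) = h (j + c)) (hw : w ^ 2 ∣ (t : ZMod n).val + 1) :
    w ≤ 2 * μ ^ 2 := by
  have hupos : 0 < u := huo.pos
  have hwo : Odd w := by
    rw [huw] at huo
    exact (Nat.odd_mul.1 huo).1
  have hwpos : 0 < w := hwo.pos
  have hμpos : 0 < μ := by
    rcases Nat.eq_zero_or_pos μ with h0 | h0
    · rw [h0, mul_zero] at huw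
      omega
    · exact h0
  have hd2 : 2 ∣ n := ⟨2 * u ^ 2, by rw [hn]; ring⟩
  set τ : ZMod n →+* ZMod 2 := ZMod.castHom hd2 _ with hτ
  have hN : (4 * (u : ℤ) ^ 2) ≠ 0 := by positivity
  obtain ⟨d, hd⟩ := even_form τ c (shift_even hperf hN τ t c ht)
  have htv : (((t : ZMod n).val : ℕ) : ZMod n) = t := ZMod.natCast_zmod_val _
  have hodd : 2 ∣ (t : ZMod n).val + 1 := by
    have h0 : IsUnit (τ t) := t.isUnit.map τ
    have h1 : τ t = 1 := by
      revert h0
      generalize τ t = z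
      revert z
      decide
    rw [← htv, map_natCast] at h1
    rw [← ZMod.natCast_eq_zero_iff]
    push_cast
    rw [h1]
    decide
  have h2w : 2 * w ^ 2 ∣ (t : ZMod n).val + 1 := by
    apply Nat.Coprime.mul_dvd_of_dvd_of_dvd _ hodd hw
    exact Nat.Coprime.pow_right _ (Nat.coprime_two_left.2 hwo)
  have hrn : 2 * w ^ 2 * (2 * μ ^ 2) = n := by
    rw [hn, huw]
    ring
  have hdn : 2 * w ^ 2 ∣ n := ⟨2 * μ ^ 2, hrn.symm⟩
  have hNZ : NeZero (2 * w ^ 2) := ⟨by positivity⟩
  have hNZw : NeZero w := ⟨hwpos.ne'⟩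
  set σ : ZMod n →+* ZMod (2 * w ^ 2) := ZMod.castHom hdn _ with hσ
  have hσt : σ t = -1 := by
    rw [← htv, map_natCast, eq_neg_iff_add_eq_zero]
    have := (ZMod.natCast_eq_zero_iff ((t : ZMod n).val + 1) (2 * w ^ 2)).2 h2w
    push_cast at this
    exact this
  set g : ZMod n → ℤ := fun j => h (j + d) with hg
  have hgpm : ∀ j, g j = 1 ∨ g j = -1 := fun j => hpm _
  set F := push σ g with hF
  have hFperf : Perf F (4 * (u : ℤ) ^ 2) := (hperf.shift d).push σ
  have hFsym : ∀ i, F (-i) = F i := fun i => recentre σ h t c d ht hσt hd i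
  have hFabs : ∀ i, |F i| ≤ ((2 * μ ^ 2 : ℕ) : ℤ) := fun i => push_abs_le σ g hgpm hrn i
  have hsupp : ∀ i, F i ≠ 0 → w ∣ i.val := by
    intro i hi
    by_contra hcon
    apply hi
    obtain ⟨p, k, hp, hpk, hnd⟩ : ∃ p k : ℕ, p.Prime ∧ p ^ k ∣ w ∧ ¬ p ^ k ∣ i.val := by
      by_contra hcon2
      push Not at hcon2
      apply hcon
      exact (Nat.dvd_iff_prime_pow_dvd_dvd _ _).2 fun p k hp hk => hcon2 p k hp hk
    have hk0 : k ≠ 0 := by
      rintro rfl
      exact hnd (by simp)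
    have hpw : p ∣ w := (dvd_pow_self p hk0).trans hpk
    have hp2 : p ≠ 2 := by
      rintro rfl
      obtain ⟨k, hk⟩ := hwo
      omega
    obtain ⟨a, v, hv, hwv⟩ := Nat.exists_eq_pow_mul_and_not_dvd hwpos.ne' p hp.one_lt.ne'
    have hka : k ≤ a := by
      by_contra hc
      have h1 : p ^ (a + 1) ∣ w := (pow_dvd_pow p (by omega)).trans hpk
      rw [hwv, pow_succ] at h1
      exact hv (Nat.dvd_of_mul_dvd_mul_left (pow_pos hp.pos a) h1)
    have hpμ : ¬ p ∣ μ := fun h1 => Nat.not_coprime_of_dvd_of_dvd hp.one_lt hpw h1 hcop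
    apply support_prime (q' := 2 * v ^ 2) (a := a) (u := u) hp hp2 (by rw [hwv]; ring) _ _ hupos F
      hFsym hFperf i (fun h1 => hnd ((pow_dvd_pow p hka).trans h1))
    · rw [Nat.Prime.coprime_iff_not_dvd hp]
      intro h1
      rcases (Nat.Prime.dvd_mul hp).1 h1 with h2 | h2
      · exact hp2 ((Nat.prime_dvd_prime_iff_eq hp Nat.prime_two).1 h2)
      · exact hv (hp.dvd_of_dvd_pow h2)
    · intro h1
      rw [huw, hwv, pow_succ, mul_assoc] at h1
      have h2 := Nat.dvd_of_mul_dvd_mul_left (pow_pos hp.pos a) h1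
      rcases (Nat.Prime.dvd_mul hp).1 h2 with h3 | h3
      · exact hv h3
      · exact hpμ h3
  have hdw : w ∣ 2 * w ^ 2 := ⟨2 * w, by ring⟩
  set κ : ZMod (2 * w ^ 2) →+* ZMod w := ZMod.castHom hdw _ with hκ
  have hcard : (univ.filter fun i => κ i = 0).card = 2 * w := by
    have h1 := fiber_card κ 0
    have h2 : w * (univ.filter fun i => κ i = 0).card = w * (2 * w) := by
      rw [h1]
      ring
    exact Nat.eq_of_mul_eq_mul_left hwpos h2
  have hsum : ∑ i, F i * F i = 4 * (u : ℤ) ^ 2 := by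
    have := hFperf 0
    simpa using this
  have hle : ∑ i, F i * F i ≤ ∑ i, if κ i = 0 then (((2 * μ ^ 2 : ℕ) : ℤ)) ^ 2 else 0 := by
    refine Finset.sum_le_sum fun i _ => ?_
    split_ifs with h0
    · have := hFabs i
      rw [← abs_mul_abs_self, sq]
      exact mul_self_le_mul_self (abs_nonneg _) this
    · have : F i = 0 := by
        by_contra hne
        apply h0
        have h1 := hsupp i hne
        rw [← ZMod.natCast_eq_zero_iff] at h1
        have h2 : ((i.val : ℕ) : ZMod (2 * w ^ 2)) = i := ZMod.natCast_zmod_val i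
        rw [← h2, map_natCast]
        exact h1
      rw [this, mul_zero]
  rw [hsum, ← Finset.sum_filter, Finset.sum_const, hcard, nsmul_eq_mul] at hle
  have hfin : 4 * (w * μ) ^ 2 ≤ 2 * w * (2 * μ ^ 2) ^ 2 := by
    rw [← huw]
    exact_mod_cast hle
  by_contra hcon
  push Not at hcon
  have h1 : 4 * w * μ ^ 2 * (2 * μ ^ 2) < 4 * w * μ ^ 2 * w :=
    Nat.mul_lt_mul_of_pos_left hcon (by positivity)
  nlinarith [h1, hfin]

end Vale.Agent.P033
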