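import Vale.Agent.Lib.P033.PartB

/-! # P033: multipliers congruent to 1 modulo `n/p` -/

namespace Vale.Agent.P033

open Finset

variable {n : ℕ} [NeZero n]

omit [NeZero n] in
theorem iter_mult (h : ZMod n → ℤ) (v c : ZMod n) (hv : v * v = 0)
    (ht : ∀ j, h ((1 + v) * j) = h (j + c)) (k : ℕ) (j : ZMod n) :
    h ((1 + k * v) * j) = h (j + (k - (k.choose 2 : ℕ) * v) * c) := by
  induction k generalizing j with
  | zero => simp
  | succ k ih =>
    have h1 : (1 + ((k + 1 : ℕ) : ZMod n) * v) * j = (1 + v) * ((1 + k * v) * j) := by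
      push_cast
      linear_combination (-(k : ZMod n) * j) * hv
    have h2 : (1 + (k : ZMod n) * v) * j + c = (1 + k * v) * (j + (1 - k * v) * c) := by
      linear_combination ((k : ZMod n) * k * c) * hv
    rw [h1, ht, h2, ih]
    congr 1
    rw [Nat.choose_succ_succ' k 1]
    push_cast
    rw [Nat.choose_one_right]
    ring

theorem partC {u p κ : ℕ} (hn : n = 4 * u ^ 2) (hp : p.Prime) (hp2 : p ≠ 2) (hκ : n = p * κ)
    (hpκ : p ∣ κ) (h : ZMod n → ℤ) (hpm : ∀ j, h j = 1 ∨ h j = -1)
    (hperf : Perf h (4 * (u : ℤ) ^ 2)) (v c : ZMod n)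
    (ht : ∀ j, h ((1 + v) * j) = h (j + c)) (hv : (p : ZMod n) * v = 0) : v = 0 := by
  by_contra hv0
  have hnpos : 0 < n := Nat.pos_of_ne_zero (NeZero.ne n)
  have hκpos : 0 < κ := by
    rcases Nat.eq_zero_or_pos κ with h0 | h0
    · rw [h0, mul_zero] at hκ
      omega
    · exact h0
  have hN : (4 * (u : ℤ) ^ 2) ≠ 0 := by
    have : ((n : ℕ) : ℤ) ≠ 0 := by exact_mod_cast hnpos.ne'
    rw [hn] at this
    push_cast at this
    exact this
  -- elements killed by p are multiples of κ
  have form : ∀ e : ZMod n, (p : ZMod n) * e = 0 → ∃ m : ℕ, e = (κ : ZMod n) * m ∧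
      (e ≠ 0 → ¬ p ∣ m) := by
    intro e he
    have h1 : ((e.val : ℕ) : ZMod n) = e := ZMod.natCast_zmod_val e
    generalize e.val = k at h1
    subst h1
    rw [← Nat.cast_mul, ZMod.natCast_eq_zero_iff, hκ] at he
    obtain ⟨m, rfl⟩ := Nat.dvd_of_mul_dvd_mul_left hp.pos he
    refine ⟨m, by push_cast; rfl, ?_⟩
    intro hne hpm'
    apply hne
    rw [ZMod.natCast_eq_zero_iff]
    calc n = κ * p := by rw [hκ, mul_comm]
      _ ∣ κ * m := Nat.mul_dvd_mul_left _ hpm'
  have hκκ : (κ : ZMod n) * κ = 0 := by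
    rw [← Nat.cast_mul, ZMod.natCast_eq_zero_iff]
    calc n = p * κ := hκ
      _ ∣ κ * κ := Nat.mul_dvd_mul_right hpκ _
  have kill : ∀ a b : ZMod n, (p : ZMod n) * a = 0 → (p : ZMod n) * b = 0 → a * b = 0 := by
    intro a b ha hb
    obtain ⟨m, rfl, -⟩ := form a ha
    obtain ⟨m', rfl, -⟩ := form b hb
    linear_combination ((m : ZMod n) * m') * hκκ
  have hvv : v * v = 0 := kill v v hv hv
  have hpc : (p : ZMod n) * c = 0 := by
    apply no_period hperf hN
    intro j
    have h1 := iter_mult h v c hvv ht p j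
    rw [hv, add_zero, one_mul] at h1
    rw [h1]
    congr 2
    have h2 : ((p.choose 2 : ℕ) : ZMod n) * v = 0 := by
      obtain ⟨m, hm⟩ := hp.dvd_choose_self (k := 2) (by norm_num)
        (lt_of_le_of_ne hp.two_le (Ne.symm hp2))
      rw [hm]
      push_cast
      linear_combination (m : ZMod n) * hv
    rw [h2, sub_zero]
  set δ : ZMod n → ZMod n := fun j => v * j - c with hδ
  have hpδ : ∀ j, (p : ZMod n) * δ j = 0 := by
    intro j
    simp only [hδ]
    linear_combination j * hv - hpc
  have hstep : ∀ j, h (j + δ j) = h j := by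
    intro j
    have h1 := ht (j - c)
    rw [sub_add_cancel] at h1
    rw [← h1]
    congr 1
    simp only [hδ]
    linear_combination kill v c hv hpc
  have hiter : ∀ j (k : ℕ), h (j + k * δ j) = h j := by
    intro j k
    induction k with
    | zero => simp
    | succ k ih =>
      have h1 : δ (j + k * δ j) = δ j := by
        have h2 := kill v (δ j) hv (hpδ j)
        have h3 : δ (j + k * δ j) = v * j + k * (v * δ j) - c := by
          simp only [hδ]
          ring
        rw [h3, h2]
        simp only [hδ]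
        ring
      have h4 := hstep (j + k * δ j)
      rw [h1, ih] at h4
      rw [← h4]
      congr 1
      push_cast
      ring
  have hgood : ∀ j, δ j ≠ 0 → h (j + κ) = h j := by
    intro j hj
    obtain ⟨m, hm, hm'⟩ := form (δ j) (hpδ j)
    have hcop := (Nat.Prime.coprime_iff_not_dvd hp).2 (hm' hj)
    obtain ⟨k, hk⟩ : ∃ k : ℕ, (m * k) % p = 1 % p := by
      obtain ⟨k, -, hk⟩ := Nat.exists_mul_mod_eq_one_of_coprime hcop.symm hp.one_lt
      exact ⟨k, by rw [hk, Nat.mod_eq_of_lt hp.one_lt]⟩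
    have h1 : (k : ZMod n) * δ j = κ := by
      have h2 : (m * k) ≡ 1 [MOD p] := hk
      have h3 : κ * (m * k) ≡ κ * 1 [MOD κ * p] := Nat.ModEq.mul_left' κ h2
      rw [mul_comm κ p, ← hκ] at h3
      have h4 := (ZMod.natCast_eq_natCast_iff _ _ _).2 h3
      rw [hm]
      push_cast at h4
      linear_combination h4
    have h2 := hiter j k
    rw [h1] at h2
    exact h2
  -- the exceptional set is small
  have hdp : p ∣ n := ⟨κ, hκ⟩
  have hNp : NeZero p := ⟨hp.ne_zero⟩
  set ρ : ZMod n →+* ZMod p := ZMod.castHom hdp _ with hρ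
  have hfib : ∀ j j', δ j = 0 → δ j' = 0 → ρ j = ρ j' := by
    intro j j' h1 h2
    have h3 : v * (j - j') = 0 := by
      simp only [hδ] at h1 h2
      linear_combination h1 - h2
    obtain ⟨m, hm, hm'⟩ := form v hv
    have hpm' := hm' hv0
    rw [← sub_eq_zero, ← map_sub]
    generalize j - j' = z at h3
    have h1 : ((z.val : ℕ) : ZMod n) = z := ZMod.natCast_zmod_val z
    generalize z.val = k at h1
    subst h1
    rw [hm, ← Nat.cast_mul, ← Nat.cast_mul, ZMod.natCast_eq_zero_iff] at h3
    have h4 : κ * p ∣ κ * (m * k) := by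
      rw [← mul_assoc, mul_comm κ p, ← hκ]
      exact h3
    have h5 := Nat.dvd_of_mul_dvd_mul_left hκpos h4
    rw [map_natCast, ZMod.natCast_eq_zero_iff]
    exact (hp.dvd_mul.1 h5).resolve_left hpm'
  have hScard : (univ.filter fun j => δ j = 0).card ≤ κ := by
    rcases (univ.filter fun j => δ j = 0).eq_empty_or_nonempty with h0 | ⟨j0, hj0⟩
    · rw [h0]
      simp
    · have h1 : (univ.filter fun j => δ j = 0) ⊆ univ.filter fun j => ρ j = ρ j0 := by
        intro j hj
        simp only [mem_filter, mem_univ, true_and] at hj hj0 ⊢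
        exact hfib j j0 hj hj0
      have h2 := Finset.card_le_card h1
      have h3 := fiber_card ρ (ρ j0)
      have h4 : (univ.filter fun j => ρ j = ρ j0).card = κ :=
        Nat.eq_of_mul_eq_mul_left hp.pos (h3.trans hκ)
      omega
  have hκ0 : (κ : ZMod n) ≠ 0 := by
    rw [Ne, ZMod.natCast_eq_zero_iff, hκ]
    intro h1
    have h2 := Nat.le_of_dvd hκpos h1
    have := hp.two_le
    nlinarith
  have h0 := hperf κ
  rw [if_neg hκ0] at h0
  have h1 : ∀ j, (1 : ℤ) - (if δ j = 0 then 2 else 0) ≤ h j * h (j + κ) := by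
    intro j
    split_ifs with hj
    · rcases hpm j with h' | h' <;> rcases hpm (j + κ) with h'' | h'' <;> rw [h', h''] <;>
        norm_num
    · rw [hgood j hj]
      rcases hpm j with h' | h' <;> rw [h'] <;> norm_num
  have h2 : ∑ j : ZMod n, ((1 : ℤ) - (if δ j = 0 then 2 else 0)) ≤ 0 := by
    exact (Finset.sum_le_sum fun j _ => h1 j).trans_eq h0
  rw [Finset.sum_sub_distrib, ← Finset.sum_filter, Finset.sum_const, Finset.sum_const,
    Finset.card_univ, ZMod.card, nsmul_eq_mul, nsmul_eq_mul, mul_one] at h2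
  have h3 : (n : ℤ) ≤ (univ.filter fun j => δ j = 0).card * 2 := by linarith
  have h4 : n ≤ (univ.filter fun j => δ j = 0).card * 2 := by exact_mod_cast h3
  have h5 : 3 ≤ p := by
    have := hp.two_le
    omega
  have h6 : 3 * κ ≤ p * κ := Nat.mul_le_mul_right _ h5
  omega

end Vale.Agent.P033
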