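import Vale.Agent.Lib.P033.PartC

/-! # P033: the value at zero of a symmetric perfect function -/

namespace Vale.Agent.P033

open Finset

/-- Fourier coefficients -/
noncomputable def four {q : ℕ} [NeZero q] (F : ZMod q → ℤ) (k : ZMod q) : ℂ :=
  ∑ j, (F j : ℂ) * ZMod.stdAddChar (j * k)

theorem four_sq {q : ℕ} [NeZero q] (F : ZMod q → ℤ) (N : ℤ) (hs : ∀ j, F (-j) = F j)
    (hF : Perf F N) (k : ZMod q) : four F k * four F k = N := by
  unfold four
  rw [Finset.sum_mul_sum]
  have h1 : ∀ i : ZMod q, ∑ j, (F i : ℂ) * ZMod.stdAddChar (i * k) *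
      ((F j : ℂ) * ZMod.stdAddChar (j * k)) =
      ∑ d, (F i : ℂ) * F (i + -d) * ZMod.stdAddChar (d * k) := by
    intro i
    rw [← Equiv.sum_comp (Equiv.subRight i)]
    refine Finset.sum_congr rfl fun d _ => ?_
    have e2 : F (d - i) = F (i + -d) := by
      rw [← hs]
      congr 1
      ring
    have e3 : d * k = i * k + (d - i) * k := by ring
    simp only [Equiv.subRight_apply, e2]
    rw [e3, AddChar.map_add_eq_mul]
    ring
  simp_rw [h1]
  rw [Finset.sum_comm]
  have h3 : ∀ d, (∑ i, (F i : ℂ) * F (i + -d) * ZMod.stdAddChar (d * k)) =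
      if d = 0 then (N : ℂ) else 0 := by
    intro d
    have h4 := congrArg (fun z : ℤ => (z : ℂ)) (hF (-d))
    simp only [neg_eq_zero] at h4
    push_cast at h4
    rw [← Finset.sum_mul, h4]
    split_ifs with h'
    · rw [h', zero_mul, AddChar.map_zero_eq_one, mul_one]
    · rw [zero_mul]
  simp_rw [h3]
  simp

theorem four_unit {q : ℕ} [NeZero q] (F : ZMod q → ℤ) (hinv : ∀ s i, IsUnit s → F (s * i) = F i)
    (k : ZMod q) (hk : IsUnit k) : four F k = four F 1 := by
  obtain ⟨s, rfl⟩ := hk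
  unfold four
  rw [← Equiv.sum_comp (Units.mulLeft s⁻¹)]
  refine Finset.sum_congr rfl fun j _ => ?_
  simp only [Units.mulLeft_apply]
  rw [hinv _ _ (s⁻¹).isUnit, mul_one]
  congr 2
  rw [mul_comm, ← mul_assoc, Units.mul_inv, one_mul]

theorem zero_lower {q u : ℕ} [NeZero q] (hu : 0 < u) (F : ZMod q → ℤ) (hs : ∀ j, F (-j) = F j)
    (hF : Perf F (4 * (u : ℤ) ^ 2)) :
    2 * (u : ℤ) * (2 * q.totient - q) ≤ q * |F 0| := by
  classical
  have hinv : ∀ s i, IsUnit s → F (s * i) = F i := fun s i h => unit_inv F u hu hs hF s h i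
  have hnorm : ∀ k, ‖four F k‖ = 2 * u := by
    intro k
    have h1 := four_sq F _ hs hF k
    push_cast at h1
    have h2 : (four F k - 2 * u) * (four F k + 2 * u) = 0 := by linear_combination h1
    rcases mul_eq_zero.1 h2 with h | h
    · rw [sub_eq_zero.1 h]
      simp
    · rw [eq_neg_of_add_eq_zero_left h, norm_neg]
      simp
  have htot : ∑ k, four F k = q * F 0 := by
    unfold four
    rw [Finset.sum_comm]
    simp_rw [← Finset.mul_sum]
    have h1 : ∀ j : ZMod q, ∑ k, ZMod.stdAddChar (N := q) (j * k) =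
        if j = 0 then (q : ℂ) else 0 := by
      intro j
      have := AddChar.sum_mulShift j (ZMod.isPrimitive_stdAddChar q)
      simp_rw [mul_comm _ j] at this
      rw [this]
      split_ifs <;> simp
    simp_rw [h1]
    simp [mul_comm]
  have hcard : (univ.filter (fun i : ZMod q => IsUnit i)).card = q.totient := by
    have h2 : univ.filter (fun i : ZMod q => IsUnit i) =
        univ.image (Units.val : (ZMod q)ˣ → _) := by
      ext x
      simp only [mem_filter, mem_univ, true_and, mem_image]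
      exact Iff.rfl
    rw [h2, Finset.card_image_of_injective _ Units.val_injective, Finset.card_univ,
      ZMod.card_units_eq_totient]
  have hcard' : ((univ.filter (fun i : ZMod q => ¬ IsUnit i)).card : ℝ) =
      (q : ℝ) - q.totient := by
    have h3 := Finset.card_filter_add_card_filter_not (s := (univ : Finset (ZMod q)))
      (fun i => IsUnit i)
    rw [hcard, Finset.card_univ, ZMod.card] at h3
    have h4 : (q.totient : ℝ) + (univ.filter (fun i : ZMod q => ¬ IsUnit i)).card = q := by
      exact_mod_cast h3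
    linarith
  have hsplit := Finset.sum_filter_add_sum_filter_not univ (fun i : ZMod q => IsUnit i) (four F)
  rw [htot, Finset.sum_congr rfl (fun k hk => four_unit F hinv k (mem_filter.1 hk).2),
    Finset.sum_const, hcard, nsmul_eq_mul] at hsplit
  have hrest : ‖∑ k ∈ univ.filter (fun i : ZMod q => ¬ IsUnit i), four F k‖ ≤
      ((q : ℝ) - q.totient) * (2 * u) := by
    refine (norm_sum_le _ _).trans ?_
    rw [Finset.sum_congr rfl (fun k _ => hnorm k), Finset.sum_const, nsmul_eq_mul, hcard']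
  have hfin : (q.totient : ℝ) * (2 * u) ≤ q * |(F 0 : ℝ)| + ((q : ℝ) - q.totient) * (2 * u) := by
    have h5 : (q.totient : ℂ) * four F 1 = q * F 0 -
        ∑ k ∈ univ.filter (fun i : ZMod q => ¬ IsUnit i), four F k := by
      linear_combination hsplit
    have h6 := congrArg (fun z : ℂ => ‖z‖) h5
    simp only [norm_mul, hnorm, Complex.norm_natCast] at h6
    rw [h6]
    refine (norm_sub_le _ _).trans ?_
    have h7 : ‖(q : ℂ) * (F 0 : ℂ)‖ = q * |(F 0 : ℝ)| := by
      rw [norm_mul, Complex.norm_natCast, Complex.norm_intCast]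
    rw [h7]
    linarith
  have hfin2 : (2 * (u : ℝ) * (2 * q.totient - q)) ≤ q * |(F 0 : ℝ)| := by linarith
  exact_mod_cast hfin2

theorem partD {n : ℕ} [NeZero n] {u w v : ℕ} (huo : Odd u) (hn : n = 4 * u ^ 2)
    (huw : u = w * v) (h : ZMod n → ℤ) (hpm : ∀ j, h j = 1 ∨ h j = -1)
    (hperf : Perf h (4 * (u : ℤ) ^ 2)) (t : (ZMod n)ˣ) (c : ZMod n)
    (ht : ∀ j, h (t * j) = h (j + c)) (hw : w ^ 2 ∣ (t : ZMod n).val + 1) :
    2 * w.totient ≤ w + v := by
  have hupos : 0 < u := huo.pos
  have hwo : Odd w := by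
    rw [huw] at huo
    exact (Nat.odd_mul.1 huo).1
  have hwpos : 0 < w := hwo.pos
  have hvpos : 0 < v := by
    rcases Nat.eq_zero_or_pos v with h0 | h0
    · rw [h0, mul_zero] at huw
      omega
    · exact h0
  have hd2 : 2 ∣ n := ⟨2 * u ^ 2, by rw [hn]; ring⟩
  set τ : ZMod n →+* ZMod 2 := ZMod.castHom hd2 _ with hτ
  have hN : (4 * (u : ℤ) ^ 2) ≠ 0 := by positivity
  have hτc := shift_even hperf hN τ t c ht
  obtain ⟨d, hd⟩ := even_form τ c hτc
  have htv : (((t : ZMod n).val : ℕ) : ZMod n) = t := ZMod.natCast_zmod_val _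
  have hτt : τ t = 1 := by
    have h0 : IsUnit (τ t) := t.isUnit.map τ
    revert h0
    generalize τ t = z
    revert z
    decide
  have hrn : w ^ 2 * (4 * v ^ 2) = n := by
    rw [hn, huw]
    ring
  have hdn : w ^ 2 ∣ n := ⟨4 * v ^ 2, hrn.symm⟩
  have hNZ : NeZero (w ^ 2) := ⟨by positivity⟩
  set ρ : ZMod n →+* ZMod (w ^ 2) := ZMod.castHom hdn _ with hρ
  have hρt : ρ t = -1 := by
    rw [← htv, map_natCast, eq_neg_iff_add_eq_zero]
    have := (ZMod.natCast_eq_zero_iff ((t : ZMod n).val + 1) (w ^ 2)).2 hw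
    push_cast at this ⊢
    exact this
  set h' : ZMod n → ℤ := fun j => sgn (τ j) * h j with hh'
  have hperf' : Perf h' (4 * (u : ℤ) ^ 2) := hperf.twist τ
  have ht' : ∀ j, h' (t * j) = h' (j + c) := by
    intro j
    simp only [hh', map_mul, hτt, one_mul, map_add, hτc, add_zero, ht]
  have hE := zero_lower hupos (push ρ fun j => h (j + d))
    (fun i => recentre ρ h t c d ht hρt hd i) ((hperf.shift d).push ρ)
  have hD := zero_lower hupos (push ρ fun j => h' (j + d))
    (fun i => recentre ρ h' t c d ht' hρt hd i) ((hperf'.shift d).push ρ)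
  set E := push ρ (fun j => h (j + d)) 0 with hEdef
  set D := push ρ (fun j => h' (j + d)) 0 with hDdef
  have hfib : (univ.filter fun j => ρ j = 0).card = 4 * v ^ 2 := by
    have := fiber_card ρ 0
    exact Nat.eq_of_mul_eq_mul_left (by positivity) (this.trans hrn.symm)
  have hS : ∑ j, (if ρ j = 0 then sgn (τ j) else 0) = 0 := by
    have h1 : ∑ j, (if ρ j = 0 then sgn (τ j) else 0) =
        -∑ j, (if ρ j = 0 then sgn (τ j) else 0) := by
      conv_lhs => rw [← Equiv.sum_comp (Equiv.addRight ((w ^ 2 : ℕ) : ZMod n))]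
      rw [← Finset.sum_neg_distrib]
      refine Finset.sum_congr rfl fun j _ => ?_
      have e1 : ρ ((w ^ 2 : ℕ) : ZMod n) = 0 := by
        rw [map_natCast]
        exact ZMod.natCast_self _
      have e2 : τ ((w ^ 2 : ℕ) : ZMod n) = 1 := by
        rw [map_natCast]
        obtain ⟨k, hk⟩ := hwo
        rw [show w ^ 2 = 2 * (2 * k ^ 2 + 2 * k) + 1 by rw [hk]; ring]
        push_cast
        rw [show (2 : ZMod 2) = 0 by decide]
        ring
      have e3 : sgn (τ j + 1) = - sgn (τ j) := by
        generalize τ j = z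
        revert z
        decide
      simp only [Equiv.coe_addRight, map_add, e1, e2, add_zero, e3]
      split_ifs <;> simp
    linarith
  have hcomb : ∀ a b : ℤ, (a = 1 ∨ a = -1) → (b = 1 ∨ b = -1) →
      a * E + b * D ≤ 4 * (v : ℤ) ^ 2 := by
    intro a b ha hb
    have h1 : a * E + b * D ≤
        ∑ j, (if ρ j = 0 then 1 + a * b * sgn (τ d) * sgn (τ j) else 0) := by
      rw [hEdef, hDdef]
      unfold push
      rw [Finset.mul_sum, Finset.mul_sum, ← Finset.sum_add_distrib]
      refine Finset.sum_le_sum fun j _ => ?_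
      split_ifs
      · simp only [hh', map_add]
        rw [sgn_add]
        have s1 : ∀ z : ZMod 2, sgn z = 1 ∨ sgn z = -1 := by decide
        rcases ha with h | h <;> rcases hb with h'' | h'' <;> rcases s1 (τ d) with h3 | h3 <;>
          rcases s1 (τ j) with h4 | h4 <;> rcases hpm (j + d) with h5 | h5 <;>
          rw [h, h'', h3, h4, h5] <;> norm_num
      · simp
    have h2 : ∑ j, (if ρ j = 0 then 1 + a * b * sgn (τ d) * sgn (τ j) else 0) =
        4 * (v : ℤ) ^ 2 := by
      have h3 : ∀ j, (if ρ j = 0 then 1 + a * b * sgn (τ d) * sgn (τ j) else 0) =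
          (if ρ j = 0 then (1 : ℤ) else 0) +
          a * b * sgn (τ d) * (if ρ j = 0 then sgn (τ j) else 0) := by
        intro j
        split_ifs <;> ring
      simp_rw [h3]
      rw [Finset.sum_add_distrib, ← Finset.mul_sum, hS, mul_zero, add_zero,
        ← Finset.sum_filter, Finset.sum_const, hfib]
      simp
    linarith
  have hsum : |E| + |D| ≤ 4 * (v : ℤ) ^ 2 := by
    have c1 := hcomb 1 1 (Or.inl rfl) (Or.inl rfl)
    have c2 := hcomb 1 (-1) (Or.inl rfl) (Or.inr rfl)
    have c3 := hcomb (-1) 1 (Or.inr rfl) (Or.inl rfl)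
    have c4 := hcomb (-1) (-1) (Or.inr rfl) (Or.inr rfl)
    rcases abs_cases E with ⟨e1, -⟩ | ⟨e1, -⟩ <;> rcases abs_cases D with ⟨e2, -⟩ | ⟨e2, -⟩ <;>
      rw [e1, e2] <;> linarith
  have htot : (w ^ 2).totient = w * w.totient := by
    have h1 := Nat.totient_gcd_mul_totient_mul w w
    rw [Nat.gcd_self] at h1
    have h2 : w.totient * (w ^ 2).totient = w.totient * (w * w.totient) := by
      rw [sq, h1]
      ring
    exact Nat.eq_of_mul_eq_mul_left (Nat.totient_pos.2 hwpos) h2
  rw [htot] at hE hD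
  push_cast at hE hD
  have hwZ : (0 : ℤ) < w := by exact_mod_cast hwpos
  have hvZ : (0 : ℤ) < v := by exact_mod_cast hvpos
  have huZ : (u : ℤ) = w * v := by exact_mod_cast huw
  rw [huZ] at hE hD
  have hall : 4 * ((w : ℤ) * v) * (2 * (w * w.totient) - w ^ 2) ≤ w ^ 2 * (4 * v ^ 2) := by
    have : (w : ℤ) ^ 2 * (|E| + |D|) ≤ w ^ 2 * (4 * v ^ 2) :=
      mul_le_mul_of_nonneg_left hsum (by positivity)
    linarith
  have hfin : (2 * (w.totient : ℤ)) ≤ w + v := by
    by_contra hcon
    push Not at hcon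
    have h1 : (0 : ℤ) < 4 * w ^ 2 * v * (2 * w.totient - w - v) := by
      apply mul_pos (by positivity)
      linarith
    nlinarith [h1, hall]
  exact_mod_cast hfin

end Vale.Agent.P033
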