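import Vale.Agent.Lib.P033.CaseTwo
import Vale.Agent.Lib.P033.Level

/-! # P033: support of symmetric perfect functions -/

namespace Vale.Agent.P033

open Finset

/-- twisted fibre sums -/
noncomputable def tw {q r : ℕ} [NeZero q] (ρ : ZMod q →+* ZMod r) (ε : ZMod q)
    (ψ : AddChar (ZMod q) ℂ) (F : ZMod q → ℤ) (j : ZMod r) : ℂ :=
  ∑ i, if ρ i = j then (F i : ℂ) * ψ (ε * i) else 0

theorem tw_perf {q r : ℕ} [NeZero q] [NeZero r] (ρ : ZMod q →+* ZMod r) (ε : ZMod q)
    (ψ : AddChar (ZMod q) ℂ) (F : ZMod q → ℤ) (N : ℤ) (hs : ∀ j, F (-j) = F j)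
    (hF : Perf F N) (hinv : ∀ j, tw ρ ε ψ F (-j) = tw ρ ε ψ F j) :
    PerfC (tw ρ ε ψ F) N := by
  intro k
  have h0 : ∀ j, tw ρ ε ψ F j * tw ρ ε ψ F (j + k) =
      ∑ i, ∑ i', if ρ i = j then (if ρ i' = -j - k then
        (F i : ℂ) * F i' * ψ (ε * (i + i')) else 0) else 0 := by
    intro j
    rw [show tw ρ ε ψ F (j + k) = tw ρ ε ψ F (-j - k) by rw [← hinv]; congr 1; ring]
    unfold tw
    rw [Finset.sum_mul_sum]
    refine Finset.sum_congr rfl fun i _ => Finset.sum_congr rfl fun i' _ => ?_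
    split_ifs <;> simp [mul_add, AddChar.map_add_eq_mul]
    ring
  simp_rw [h0]
  rw [Finset.sum_comm]
  have h2 : ∀ i, ∑ j, ∑ i', (if ρ i = j then (if ρ i' = -j - k then
        (F i : ℂ) * F i' * ψ (ε * (i + i')) else 0) else 0) =
      ∑ d, if ρ d = -k then (F i : ℂ) * F (i + -d) * ψ (ε * d) else 0 := by
    intro i
    rw [Finset.sum_eq_single (ρ i)]
    · simp only [if_true]
      rw [← Equiv.sum_comp (Equiv.subRight i)]
      refine Finset.sum_congr rfl fun d _ => ?_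
      have e1 : ρ (d - i) = -ρ i - k ↔ ρ d = -k := by
        rw [map_sub]
        constructor
        · intro h
          linear_combination h
        · intro h
          linear_combination h
      have e2 : F (d - i) = F (i + -d) := by
        rw [← hs]
        congr 1
        ring
      simp only [Equiv.subRight_apply, e1, e2, add_sub_cancel]
    · intro j _ hj
      simp [Ne.symm hj]
    · simp
  simp_rw [h2]
  rw [Finset.sum_comm]
  have h3 : ∀ d, (∑ i, if ρ d = -k then (F i : ℂ) * F (i + -d) * ψ (ε * d) else 0) =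
      if ρ d = -k then (if d = 0 then (N : ℂ) else 0) else 0 := by
    intro d
    have h4 := congrArg (fun z : ℤ => (z : ℂ)) (hF (-d))
    simp only [neg_eq_zero] at h4
    push_cast at h4
    split_ifs with h h'
    · rw [← Finset.sum_mul, h4, if_pos h', h', mul_zero, AddChar.map_zero_eq_one, mul_one]
    · rw [← Finset.sum_mul, h4, if_neg h', zero_mul]
    · simp
  simp_rw [h3]
  rw [Finset.sum_eq_single 0]
  · simp [eq_comm]
  · intro d _ hd
    simp [hd]
  · simp

theorem tw_inv {q r : ℕ} [NeZero q] [NeZero r] (ρ : ZMod q →+* ZMod r) (ε : ZMod q)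
    (hε : ρ ε = 0) (hε' : ∀ x, ρ x = 0 → (1 - ε) * x = 0)
    (ψ : AddChar (ZMod q) ℂ) (F : ZMod q → ℤ) (hinv : ∀ s j, IsUnit s → F (s * j) = F j)
    (s j : ZMod r) (hs : IsUnit s) : tw ρ ε ψ F (s * j) = tw ρ ε ψ F j := by
  have hsurj : Function.Surjective ρ := ZMod.ringHom_surjective ρ
  obtain ⟨s, rfl⟩ := hs
  obtain ⟨x, hx⟩ := hsurj (s : ZMod r)
  obtain ⟨x', hx'⟩ := hsurj ((s⁻¹ : (ZMod r)ˣ) : ZMod r)
  have E1 := hε' ε hε
  have E2 := hε' (x * x' - 1) (by rw [map_sub, map_mul, hx, hx', map_one]; simp)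
  have hmul : (ε + (1 - ε) * x) * (ε + (1 - ε) * x') = 1 := by
    linear_combination (-1 + x + x' - x * x') * E1 + E2
  have hmul' : (ε + (1 - ε) * x') * (ε + (1 - ε) * x) = 1 := by
    rw [mul_comm]
    exact hmul
  set t : (ZMod q)ˣ := ⟨ε + (1 - ε) * x, ε + (1 - ε) * x', hmul, hmul'⟩ with ht
  have htv : (t : ZMod q) = ε + (1 - ε) * x := rfl
  have hρt : ρ t = s := by
    rw [htv, map_add, map_mul, map_sub, hε, map_one, hx]
    ring
  have hεt : ε * t = ε := by
    rw [htv]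
    linear_combination (x - 1) * E1
  unfold tw
  rw [← Equiv.sum_comp (Units.mulLeft t)]
  refine Finset.sum_congr rfl fun i _ => ?_
  have h1 : (ρ (t : ZMod q) * ρ i = (s : ZMod r) * j) ↔ ρ i = j := by
    rw [hρt]
    constructor
    · intro h
      exact s.isUnit.mul_left_cancel h
    · intro h
      rw [h]
  simp only [Units.mulLeft_apply, map_mul, h1, hinv _ _ t.isUnit]
  rw [← mul_assoc, hεt]

theorem tw_integral {q r : ℕ} [NeZero q] [NeZero r] (ρ : ZMod q →+* ZMod r) (ε : ZMod q)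
    (ψ : AddChar (ZMod q) ℂ) (F : ZMod q → ℤ) (j : ZMod r) : IsIntegral ℤ (tw ρ ε ψ F j) := by
  unfold tw
  apply IsIntegral.sum
  intro i _
  split_ifs
  · apply IsIntegral.mul
    · exact isIntegral_algebraMap (x := F i)
    · apply IsIntegral.of_pow (n := q) (Nat.pos_of_ne_zero (NeZero.ne q))
      rw [← AddChar.map_nsmul_eq_pow]
      have : q • (ε * i) = 0 := by
        rw [nsmul_eq_mul, ZMod.natCast_self, zero_mul]
      rw [this, AddChar.map_zero_eq_one]
      exact isIntegral_one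
  · exact isIntegral_zero

/-- an algebraic integer `z` with `p^(2a) z = 2 u K`, `K` small, vanishes -/
theorem small_zero {p a u i : ℕ} (hp : p.Prime) (hp2 : p ≠ 2) (hi : i < a)
    (hpu : ¬ p ^ (a + 1) ∣ u) (z : ℂ) (hz : IsIntegral ℤ z) (K : ℤ)
    (hK : |K| ≤ 2 * (p : ℤ) ^ i) (h : (p : ℂ) ^ (2 * a) * z = 2 * u * K) : z = 0 := by
  have hp0 : (p : ℂ) ≠ 0 := by exact_mod_cast hp.ne_zero
  have hpQ : (p : ℚ) ≠ 0 := by exact_mod_cast hp.ne_zero
  have hrat : z = ((2 * u * K / (p : ℚ) ^ (2 * a) : ℚ) : ℂ) := by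
    push_cast
    field_simp
    linear_combination h
  obtain ⟨y, hy⟩ : ∃ y : ℤ, (y : ℚ) = 2 * u * K / (p : ℚ) ^ (2 * a) := by
    have h1 : IsIntegral ℤ (2 * u * K / (p : ℚ) ^ (2 * a) : ℚ) := by
      have h2 : z = algebraMap ℚ ℂ (2 * u * K / (p : ℚ) ^ (2 * a)) := hrat
      rw [h2] at hz
      exact (isIntegral_algebraMap_iff (algebraMap ℚ ℂ).injective).1 hz
    obtain ⟨y, hy⟩ := IsIntegrallyClosed.isIntegral_iff.1 h1
    exact ⟨y, hy⟩
  have h3 : (p : ℤ) ^ (2 * a) * y = 2 * u * K := by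
    have : (p : ℚ) ^ (2 * a) * y = 2 * u * K := by
      rw [hy]
      field_simp
    exact_mod_cast this
  have hK0 : K = 0 := by
    by_contra hne
    have hprime : Prime (p : ℤ) := Nat.prime_iff_prime_int.1 hp
    have h4 : (p : ℤ) ^ (a + a) ∣ (2 * u) * K := by
      rw [← two_mul]
      exact Dvd.intro _ h3
    have h5 : (p : ℤ) ^ (a + 1) ∣ 2 * u ∨ (p : ℤ) ^ a ∣ K := by
      by_contra hcon
      push Not at hcon
      obtain ⟨hc1, hc2⟩ := hcon
      have h2u : (2 * (u : ℤ)) ≠ 0 := by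
        intro h0
        rw [h0] at hc1
        exact hc1 (dvd_zero _)
      have f1 := (FiniteMultiplicity.of_prime_left hprime h2u)
      have f2 := (FiniteMultiplicity.of_prime_left hprime hne)
      have e1 : multiplicity (p : ℤ) (2 * u) < a + 1 := by
        rw [f1.multiplicity_lt_iff_not_dvd]
        exact hc1
      have e2 : multiplicity (p : ℤ) K < a := by
        rw [f2.multiplicity_lt_iff_not_dvd]
        exact hc2
      have f3 := (FiniteMultiplicity.of_prime_left hprime (mul_ne_zero h2u hne))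
      have e3 := multiplicity_mul hprime f3
      have e4 := f3.pow_dvd_iff_le_multiplicity.1 h4
      omega
    rcases h5 with h5 | h5
    · have h6 : p ^ (a + 1) ∣ 2 * u := by exact_mod_cast h5
      apply hpu
      exact Nat.Coprime.dvd_of_dvd_mul_left
        (Nat.Coprime.pow_left _ ((Nat.coprime_primes hp Nat.prime_two).2 hp2)) h6
    · have h6 := Int.le_of_dvd (abs_pos.2 hne) ((dvd_abs _ _).2 h5)
      have hp3 : (3 : ℤ) ≤ p := by
        have := hp.two_le
        have : 3 ≤ p := by omega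
        exact_mod_cast this
      have h7 : (p : ℤ) ^ (i + 1) ≤ (p : ℤ) ^ a :=
        pow_le_pow_right₀ (by linarith) (by omega)
      rw [pow_succ] at h7
      have h8 : (0 : ℤ) < (p : ℤ) ^ i := by positivity
      nlinarith
  rw [hK0] at h
  simp only [Int.cast_zero, mul_zero, mul_eq_zero] at h
  exact h.resolve_left (pow_ne_zero _ hp0)

/-- existence of the idempotent -/
theorem exists_eps {q P q' : ℕ} [NeZero q] [NeZero P] (hq : q = P * q') (hcop : Nat.Coprime P q')
    (ρ : ZMod q →+* ZMod P) :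
    ∃ ε : ZMod q, ρ ε = 0 ∧ ∀ x, ρ x = 0 → (1 - ε) * x = 0 := by
  have hbez : ∃ c : ℤ, (q' : ℤ) ∣ 1 - P * c := by
    have h1 := Int.gcd_eq_gcd_ab P q'
    have h2 : Int.gcd (P : ℤ) q' = 1 := by
      rw [Int.gcd_natCast_natCast]
      exact hcop
    rw [h2] at h1
    refine ⟨Int.gcdA P q', Int.gcdB P q', ?_⟩
    push_cast at h1
    linear_combination h1
  obtain ⟨c, hc⟩ := hbez
  refine ⟨((P * c : ℤ) : ZMod q), ?_, ?_⟩
  · rw [map_intCast]
    push_cast
    rw [ZMod.natCast_self, zero_mul]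
  · intro x hx
    have h1 : ((x.val : ℕ) : ZMod q) = x := ZMod.natCast_zmod_val x
    generalize x.val = k at h1
    subst h1
    rw [map_natCast, ZMod.natCast_eq_zero_iff] at hx
    have h3 : (q : ℤ) ∣ (1 - P * c) * k := by
      rw [hq]
      push_cast
      rw [mul_comm]
      exact mul_dvd_mul hc (by exact_mod_cast hx)
    have h4 := (ZMod.intCast_zmod_eq_zero_iff_dvd _ _).2 h3
    push_cast at h4 ⊢
    exact h4

theorem support_prime {q u p a q' : ℕ} [NeZero q] (hp : p.Prime) (hp2 : p ≠ 2)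
    (hq : q = p ^ (2 * a) * q') (hcop : Nat.Coprime p q') (hpu : ¬ p ^ (a + 1) ∣ u) (hu : 0 < u)
    (F : ZMod q → ℤ) (hs : ∀ j, F (-j) = F j) (hF : Perf F (4 * (u : ℤ) ^ 2))
    (i : ZMod q) (hi : ¬ p ^ a ∣ i.val) : F i = 0 := by
  have hNp : NeZero p := ⟨hp.ne_zero⟩
  have hd : p ^ (2 * a) ∣ q := ⟨q', hq⟩
  set ρ : ZMod q →+* ZMod (p ^ (2 * a)) := ZMod.castHom hd _ with hρ
  obtain ⟨ε, hε, hε'⟩ := exists_eps hq (Nat.Coprime.pow_left _ hcop) ρ
  have hinv : ∀ s j, IsUnit s → F (s * j) = F j := fun s j h => unit_inv F u hu hs hF s h j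
  obtain ⟨i0, y, hy, hiy⟩ := decomp hp (2 * a) (ρ i)
  have hi0 : i0 < a := by
    by_contra hcon
    apply hi
    have h1 : ((i.val : ℕ) : ZMod q) = i := ZMod.natCast_zmod_val i
    have h2 : ((i.val : ℕ) : ZMod (p ^ (2 * a))) =
        (p : ZMod (p ^ (2 * a))) ^ a * ((p : ZMod (p ^ (2 * a))) ^ (i0 - a) * y) := by
      rw [← mul_assoc, ← pow_add, show a + (i0 - a) = i0 by omega, ← hiy]
      conv_rhs => rw [← h1]
      rw [map_natCast]
    have hda : p ^ a ∣ p ^ (2 * a) := pow_dvd_pow p (by omega)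
    have h3 := congrArg (ZMod.castHom hda (ZMod (p ^ a))) h2
    rw [map_natCast, map_mul, map_pow, map_natCast] at h3
    have h4 : ((p : ZMod (p ^ a))) ^ a = 0 := pow_eq_zero' a a le_rfl
    rw [h4, zero_mul, ZMod.natCast_eq_zero_iff] at h3
    exact h3
  have hG : ∀ ψ : AddChar (ZMod q) ℂ, tw ρ ε ψ F (ρ i) = 0 := by
    intro ψ
    have hGinv : ∀ s j, IsUnit s → tw ρ ε ψ F (s * j) = tw ρ ε ψ F j := fun s j h =>
      tw_inv ρ ε hε hε' ψ F hinv s j h
    have hGperf : PerfC (tw ρ ε ψ F) (4 * (u : ℂ) ^ 2) := by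
      have := tw_perf ρ ε ψ F (4 * (u : ℤ) ^ 2) hs hF (fun j => by
        have := hGinv (-1) j isUnit_one.neg
        rwa [neg_one_mul] at this)
      push_cast at this
      exact this
    obtain ⟨K, hK, hK'⟩ := (level hp u (2 * a) _ hGperf hGinv).2 i0 (by omega)
    have h0 := small_zero hp hp2 hi0 hpu _ (tw_integral ρ ε ψ F _) K hK hK'
    rw [hiy, mul_comm ((p : ZMod (p ^ (2 * a))) ^ i0) y, hGinv _ _ hy, h0]
  have hfib : ∀ ψ : AddChar (ZMod q) ℂ,
      ∑ k, (if ρ k = ρ i then (F k : ℂ) else 0) * ψ (k - i) = 0 := by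
    intro ψ
    have h1 : ∀ k, (if ρ k = ρ i then (F k : ℂ) else 0) * ψ (k - i) =
        (if ρ k = ρ i then (F k : ℂ) * ψ (ε * k) else 0) * ψ (-(ε * i)) := by
      intro k
      split_ifs with h
      · have h2 : (1 - ε) * (k - i) = 0 := hε' _ (by rw [map_sub, h, sub_self])
        have h3 : k - i = ε * k + -(ε * i) := by linear_combination h2
        rw [h3, AddChar.map_add_eq_mul]
        ring
      · simp
    simp_rw [h1]
    rw [← Finset.sum_mul]
    have := hG ψ
    unfold tw at this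
    rw [this, zero_mul]
  have hsum : ∑ ψ : AddChar (ZMod q) ℂ,
      ∑ k, (if ρ k = ρ i then (F k : ℂ) else 0) * ψ (k - i) = 0 :=
    Finset.sum_eq_zero fun ψ _ => hfib ψ
  rw [Finset.sum_comm] at hsum
  simp_rw [← Finset.mul_sum, AddChar.sum_apply_eq_ite] at hsum
  rw [Finset.sum_eq_single i] at hsum
  · simp only [if_true, sub_self] at hsum
    have hq0 : (Fintype.card (ZMod q) : ℂ) ≠ 0 := by
      rw [ZMod.card]
      exact_mod_cast NeZero.ne q
    have := (mul_eq_zero.1 hsum).resolve_right hq0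
    exact_mod_cast this
  · intro k _ hk
    rw [if_neg (sub_ne_zero.2 hk), mul_zero]
  · intro h
    exact absurd (Finset.mem_univ _) h

end Vale.Agent.P033
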